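import Vale.Agent.N246S.Model
import Vale.Agent.P246.Dis.H105.BlockD

/-! # P246: the complex with one 3-cell; its wedge with a sphere is two-dimensional -/

namespace Vale.Agent.N246S

open Topology Metric Set Vale.Agent.P246 Vale.Agent.P246.T Vale.Agent.P246.Dis

theorem exists_lift_lin {R M M' F : Type} [Ring R] [AddCommGroup M] [Module R M] [AddCommGroup M']
    [Module R M'] [AddCommGroup F] [Module R F] (i : M' →ₗ[R] M) (hi : Function.Injective i)
    (φ : F →ₗ[R] M) (h : LinearMap.range φ ≤ LinearMap.range i) :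
    ∃ φ' : F →ₗ[R] M', (∀ v, i (φ' v) = φ v) ∧
      (LinearMap.range φ).comap i = LinearMap.range φ' := by
  let e := LinearEquiv.ofInjective i hi
  let φ' : F →ₗ[R] M' := e.symm.toLinearMap.comp (φ.codRestrict _ fun v => h ⟨v, rfl⟩)
  have h1 : ∀ v, i (φ' v) = φ v := fun v =>
    congrArg Subtype.val (e.apply_symm_apply ⟨φ v, h ⟨v, rfl⟩⟩)
  refine ⟨φ', h1, ?_⟩
  ext x
  constructor
  · rintro ⟨v, hv⟩
    exact ⟨v, hi (by rw [h1, hv])⟩
  · rintro ⟨v, rfl⟩
    exact ⟨v, (h1 v).symm⟩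

variable {G X E : Type} [Group G] [TopologicalSpace X] [T2Space X] [TopologicalSpace E]
  [MulAction G E] [ContinuousConstSMul G E] {p : C(E, X)}

theorem res3_of_pres (hp : IsQuotientCoveringMap p G) {Pr : FinPresentation G}
    (c : PresCx Pr p) (hc : c.Good) (W : WordCor) {B : Set X} {Φ : C(Dk 3, X)}
    (h : Attach 3 c.Y B Φ) {Ψ : C(Dk 3, E)} (hΨ : ∀ x, p (Ψ x) = Φ x) {ζ : Ch 3 (Dk 3)}
    (hζ : IsFund 3 ζ) (β : Fin Pr.rels → ZG G) (y : Ch 3 E) (hy : y ∈ T.Con (p ⁻¹' c.Y) 3)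
    (hβ : bd 2 (push Ψ 3 ζ) = (lmap (fun j => SC.mk G (c.zface W j)) β).un + bd 2 y) :
    letI := H956.resAct hp B
    letI := H956.resCont hp B
    Nonempty (Res3 Pr β (p ⁻¹' B : Set E)) := by
  let _ := H956.resAct hp B
  have _ := H956.resCont hp B
  have hM : YH.Mdl hp c.Y (YH.PP c W Pr.gens Pr.rels) :=
    YH.mdl2 c W MS.main CL.main fund hp hc _ le_rfl
  have hQ := YH.main MS.main CL.main fund W G X E p hp Pr c hc
  have hr0 : YH.PP c W Pr.gens Pr.rels 0 = LinearMap.range (phi0 G c.e) :=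
    (LinearMap.range_toSpanSingleton _).symm
  have hr1 : YH.PP c W Pr.gens Pr.rels 1 = LinearMap.range (phi1 Pr.x c.a) := by
    rw [YH.PP, YH.image_lt_self, ← Fintype.range_linearCombination]
    rfl
  have hr2 : YH.PP c W Pr.gens Pr.rels 2 =
      LinearMap.range (lmap (fun j => SC.mk G (c.zface W j)) :
        (Fin Pr.rels → ZG G) →ₗ[ZG G] SC G 2 E) := by
    rw [YH.PP, YH.image_lt_self, ← Fintype.range_linearCombination]
    rfl
  have j0 : Function.Injective (phi0 G c.e) := (injective_iff_map_eq_zero _).2 fun v hv =>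
    (YH.mdl0 c W MS.main CL.main fund hp).2 v hv
  have j1 : Function.Injective (phi1 Pr.x c.a) := (injective_iff_map_eq_zero _).2 fun v hv =>
    YH.lmap_inj (YH.z1 c) (fun i => YH.SA hp (c.Y1 i) 1) (fun k i hki => by
      rw [YH.mem_SA]
      exact Finsupp.single_mem_supported ℤ _ fun t => YH.a_mem c k i hki _)
      (fun k r hr => (YH.step1 c W MS.main CL.main fund hp hc k
        (YH.mdl1 c W MS.main CL.main fund hp hc _ k.2.le)).2 r hr) hv
  have j2 := H956.lmap_face_inj hp c hc W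
  let z : SC G 3 E := SC.mk G (push Ψ 3 ζ) - SC.mk G y
  have hdz : SC.d G 2 E z = lmap (fun j => SC.mk G (c.zface W j)) β := by
    apply SC.un_inj
    rw [map_sub, SC.un_sub, SC.un_d, SC.un_d, SC.un_mk, SC.un_mk, hβ, add_sub_cancel_right]
  have hz : z - SC.mk G (push Ψ 3 ζ) ∈ YH.SA hp c.Y 3 := by
    have : z - SC.mk G (push Ψ 3 ζ) = -SC.mk G y := by
      change SC.mk G (push Ψ 3 ζ) - SC.mk G y - SC.mk G (push Ψ 3 ζ) = _
      abel
    rw [this]
    exact Submodule.neg_mem _ hy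
  have hzP : SC.d G 2 E z ∈ YH.PP c W Pr.gens Pr.rels 2 := by
    rw [hdz, hr2]
    exact ⟨β, rfl⟩
  obtain ⟨hN, -⟩ := YH.step MS.main CL.main hp (YH.isClosed_Y2 c _) h hΨ hζ hM hz hzP
  set Q := Function.update (YH.PP c W Pr.gens Pr.rels) 3
    (YH.PP c W Pr.gens Pr.rels 3 ⊔ Submodule.span (ZG G) {z}) with hQd
  have q0 : Q 0 = LinearMap.range (phi0 G c.e) := by
    rw [hQd, Function.update_of_ne (by norm_num), hr0]
  have q1 : Q 1 = LinearMap.range (phi1 Pr.x c.a) := by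
    rw [hQd, Function.update_of_ne (by norm_num), hr1]
  have q2 : Q 2 = LinearMap.range (lmap (fun j => SC.mk G (c.zface W j)) :
      (Fin Pr.rels → ZG G) →ₗ[ZG G] SC G 2 E) := by
    rw [hQd, Function.update_of_ne (by norm_num), hr2]
  have q3 : Q 3 = LinearMap.range (LinearMap.toSpanSingleton (ZG G) _ z) := by
    rw [hQd, Function.update_self, LinearMap.range_toSpanSingleton]
    exact bot_sup_eq _
  have q4 : ∀ n, Q (n + 4) = ⊥ := fun n => by
    rw [hQd, Function.update_of_ne (by omega)]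
    rfl
  have hi := H956.incl_injective hp B
  have hle : ∀ n, Q n ≤ LinearMap.range (H956.incl hp B n) := fun n => by
    rw [H956.incl_range]
    exact hN.le n
  obtain ⟨φ0, a0, b0⟩ := exists_lift_lin _ (hi 0) _ (q0 ▸ hle 0)
  obtain ⟨φ1, a1, b1⟩ := exists_lift_lin _ (hi 1) _ (q1 ▸ hle 1)
  obtain ⟨φ2, a2, b2⟩ := exists_lift_lin _ (hi 2) _ (q2 ▸ hle 2)
  obtain ⟨φ3, a3, b3⟩ := exists_lift_lin _ (hi 3) _ (q3 ▸ hle 3)
  refine ⟨{
    P := fun n => (Q n).comap (H956.incl hp B n)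
    φ0 := φ0
    φ1 := φ1
    φ2 := φ2
    z := φ3 1
    model := H956.res_model hp hN
    r0 := by rw [q0, b0]
    r1 := by rw [q1, b1]
    r2 := by rw [q2, b2]
    r3 := ?_
    r4 := fun n => by
      rw [q4]
      exact LinearMap.ker_eq_bot.2 (hi _)
    j0 := fun v w h => j0 (by rw [← a0, ← a0, h])
    j1 := fun v w h => j1 (by rw [← a1, ← a1, h])
    j2 := fun v w h => j2 (by rw [← a2, ← a2, h])
    c1 := fun v => hi 0 (by rw [← H956.incl_d, a1, a0, hQ.c1])
    c2 := fun v => hi 1 (by rw [← H956.incl_d, a2, a1, hQ.c2])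
    c3 := hi 2 (by
      rw [← H956.incl_d, a3, a2, LinearMap.toSpanSingleton_apply, one_smul, hdz]) }⟩
  rw [q3, b3, ← LinearMap.range_toSpanSingleton]
  congr 1
  ext
  simp

/-- The complex of a presentation and of one 3-cell; the wedge with a sphere is homotopy
equivalent to a complex with the numbers of cells of the presentation complex. -/
theorem block (G : Type) [Group G] (Pr : FinPresentation G)
    (β : Fin Pr.rels → ZG G) (lam : (Fin Pr.rels → ZG G) →ₗ[ZG G] ZG G) (hβ : fox2 Pr β = 0)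
    (hlam : lam β = 1) :
    ∃ (B : Type) (_ : TopologicalSpace B) (_ : T2Space B) (_ : ConnectedSpace B)
      (_ : CWComplex (univ : Set B)), CWComplex.Finite (univ : Set B) ∧
      (∀ x : B, Nonempty (FundamentalGroup B x ≃* G)) ∧ D2Condition B ∧
      Nat.card (RelCWComplex.cell (univ : Set B) 0) = 1 ∧
      Nat.card (RelCWComplex.cell (univ : Set B) 1) = Pr.gens ∧
      Nat.card (RelCWComplex.cell (univ : Set B) 2) = Pr.rels ∧
      Nat.card (RelCWComplex.cell (univ : Set B) 3) = 1 ∧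
      (∀ m > 3, IsEmpty (RelCWComplex.cell (univ : Set B) m)) ∧
      ∀ (x : B) (s : S2), TwoModel (Wedge x s) Pr.gens Pr.rels := by
  obtain ⟨X, E, _, _, _, _, _, _, p, hp, hcon⟩ := H105.exists_ambient G
  obtain ⟨W⟩ := WC.main
  obtain ⟨ζ, hζf, hζ⟩ := H285.exists_zeta3'
  obtain ⟨e⟩ : Nonempty E := inferInstance
  have hα : ∀ i, Nonempty (Path e (Pr.x i • e)) := fun i => PathConnectedSpace.joined _ _
  let α : ∀ i, Path e (Pr.x i • e) := fun i => (hα i).some
  choose δ2 hδ2 using fun j => YD.exists_disc Pr.x α (Pr.r j).toWord (H105.wval_rel Pr j)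
  obtain ⟨y, hy, -, -, -⟩ := YC.main G X E p hp Pr e α δ2 hδ2
  obtain ⟨hp1, -, -, -⟩ := EWb.main G X E p hp Pr.gens Pr.rels
  have hcon1 : ContractibleSpace (EW G E Pr.gens Pr.rels) :=
    (EWb.heq E (WW Pr.gens Pr.rels)).symm.contractibleSpace
  obtain ⟨δ, hδ, t, ht, hbd⟩ := H105.exists_ball (fun _ _ _ e τ hτ => H285.exists_fill e τ hτ)
    hp1 y hy W β hβ hζ
  obtain ⟨c, Ψ, hc, hce, hca, hcb, -, hΨ, hatt⟩ := H316.d1 G (X × WW Pr.gens Pr.rels)
    (EW G E Pr.gens Pr.rels) (pW G Pr.gens Pr.rels p) Pr y hy δ hδ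
  obtain ⟨t', ht', hbd'⟩ := H316.d1b W G (X × WW Pr.gens Pr.rels)
    (EW G E Pr.gens Pr.rels) (pW G Pr.gens Pr.rels p) Pr y c hce hca hcb δ Ψ hΨ ζ hζf.cyc β t ht
    hbd
  obtain ⟨hp2, -, -, -⟩ := EWb.main G _ _ (pW G Pr.gens Pr.rels p) hp1 0 2
  set B : Set ((X × WW Pr.gens Pr.rels) × WW 0 2) :=
    c.Y ∪ range ((pW G 0 2 (pW G Pr.gens Pr.rels p)).comp Ψ) with hB
  obtain ⟨hBb, hpc, hcpt, hcw, hfin, ⟨h0⟩, ⟨h1⟩, ⟨h2⟩, ⟨h3⟩, h4⟩ := H316.d2 G _ _
    (pW G 0 2 (pW G Pr.gens Pr.rels p)) hp2 Pr c hc B _ hatt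
  have hsc0 : SimplyConnectedSpace (pW G 0 2 (pW G Pr.gens Pr.rels p) ⁻¹' c.Y) :=
    YP.main G _ _ _ hp2 Pr c hc
  have hsc : SimplyConnectedSpace (pW G 0 2 (pW G Pr.gens Pr.rels p) ⁻¹' B) :=
    H316.d3 G _ _ _ hp2 3 (by norm_num) c.Y B _ Ψ (YH.isClosed_Y2 c _) hatt (fun _ => rfl) hsc0
  have hD2 : D2Condition B := H956.d2_of_pres hp2 c hc W hatt (fun _ => rfl) hζf β t' ht' hbd'
    lam hlam
  obtain ⟨D⟩ := res3_of_pres hp2 c hc W hatt (fun _ => rfl) hζf β t' ht' hbd'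
  let _ := H956.resAct hp2 B
  have _ := H956.resCont hp2 B
  refine ⟨B, inferInstance, inferInstance, inferInstance, hcw, hfin,
    fun x => H285.pi1_equiv (H956.res_isQuotientCoveringMap hp2 B) x, hD2,
    (Nat.card_congr h0).trans (Nat.card_fin _), (Nat.card_congr h1).trans (Nat.card_fin _),
    (Nat.card_congr h2).trans (Nat.card_fin _), (Nat.card_congr h3).trans (Nat.card_fin _), h4,
    fun x s => ?_⟩
  exact wedge_model (H956.res_isQuotientCoveringMap hp2 B) (built_univ hBb) lam hβ hlam D x s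

end Vale.Agent.N246S
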