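import Vale.Agent.N246S.Sph
import Vale.Agent.P246.Dis.H956.Pres
import Vale.Agent.P246.Dis.H316.SC3
import Vale.Agent.P246.Dis.H316.Tr3
import Vale.Agent.P246.Dis.H285.Degree
import Vale.Agent.P246.T.YD

/-! # P246: the universal cover of the wedge with a sphere and its chains -/

namespace Vale.Agent.N246S

open Topology Metric Set Vale.Agent.P246 Vale.Agent.P246.T Vale.Agent.P246.Dis

/-! ### Algebra -/

section Alg

variable {R : Type} [Ring R] {S : ℕ → Type} [∀ n, AddCommGroup (S n)] [∀ n, Module R (S n)]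
  {d : ∀ n, S (n + 1) →ₗ[R] S n}

/-- transfer of a model along injective maps, forward -/
theorem transfer_map {S' : ℕ → Type} [∀ n, AddCommGroup (S' n)] [∀ n, Module R (S' n)]
    {d' : ∀ n, S' (n + 1) →ₗ[R] S' n} {A : ∀ n, Submodule R (S n)} {Q : ∀ n, Submodule R (S' n)}
    (hQ : IsModel S' d' (fun _ => ⊤) Q)
    (i : ∀ n, S' n →ₗ[R] S n) (hi : ∀ n, Function.Injective (i n))
    (hr : ∀ n, LinearMap.range (i n) = A n) (hd : ∀ n x, d n (i (n + 1) x) = i n (d' n x)) :
    IsModel S d A (fun n => (Q n).map (i n)) := by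
  have hex : ∀ n (x : S n), x ∈ A n → ∃ x', i n x' = x := fun n x hx => by
    rw [← hr] at hx; exact hx
  have hmem : ∀ n x, i n x ∈ A n := fun n x => by rw [← hr]; exact ⟨x, rfl⟩
  have hcyc : ∀ n (x : S' n), DCyc S d n (i n x) ↔ DCyc S' d' n x := by
    intro n x
    cases n with
    | zero => exact Iff.rfl
    | succ n =>
      change d n (i (n + 1) x) = 0 ↔ d' n x = 0
      rw [hd]
      exact map_eq_zero_iff _ (hi n)
  constructor
  · rintro n _ ⟨x, -, rfl⟩
    exact hmem n x
  · rintro n _ ⟨x, hx, rfl⟩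
    exact ⟨d' n x, hQ.d_mem n x hx, (hd n x).symm⟩
  · rintro n _ ⟨x, hx, rfl⟩ hc ⟨y, hy, h⟩
    obtain ⟨y', rfl⟩ := hex _ y hy
    obtain ⟨w, hw, h1⟩ := hQ.inj n x hx ((hcyc n x).1 hc)
      ⟨y', trivial, hi n (by rw [← hd, h])⟩
    exact ⟨i (n + 1) w, ⟨w, hw, rfl⟩, by rw [hd, h1]⟩
  · intro n x hx hc
    obtain ⟨x', rfl⟩ := hex n x hx
    obtain ⟨y, hy, hyc, z, -, h⟩ := hQ.surj n x' trivial ((hcyc n x').1 hc)
    exact ⟨i n y, ⟨y, hy, rfl⟩, (hcyc n y).2 hyc, i (n + 1) z, hmem _ _, by rw [h, map_add, hd]⟩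

end Alg

/-! ### Complexes built from cells -/

section Built

variable {X Y : Type} [TopologicalSpace X] [TopologicalSpace Y]

theorem built_map (f : C(X, Y)) (hf : Function.Injective f) {A : Set X} (h : Built ∅ A) :
    Built ∅ (f '' A) := by
  induction h with
  | base => rw [image_empty]; exact Built.base
  | @cell A B n Φ _ h ih =>
    refine Built.cell n (f.comp Φ) ih ⟨fun x hx => ⟨_, h.bdry x hx, rfl⟩, ?_,
      fun x y hx hy hxy => h.inj x y hx hy (hf hxy), ?_⟩
    · rintro x hx ⟨y, hy, he⟩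
      rw [hf he] at hy
      exact h.int x hx hy
    · rw [h.eq, image_union, ← range_comp]
      rfl

theorem built_sub {A C : Set X} (h : Built ∅ A) (hAC : A ⊆ C) :
    Built ∅ (Subtype.val ⁻¹' A : Set C) := by
  induction h with
  | base => rw [preimage_empty]; exact Built.base
  | @cell A B n Φ _ h ih =>
    have hB : ∀ x, Φ x ∈ C := fun x => hAC (by rw [h.eq]; exact Or.inr ⟨x, rfl⟩)
    have hAC' : A ⊆ C := fun x hx => hAC (by rw [h.eq]; exact Or.inl hx)
    refine Built.cell n (⟨fun x => ⟨Φ x, hB x⟩, by fun_prop⟩ : C(Dk n, C)) (ih hAC')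
      ⟨fun x hx => h.bdry x hx, fun x hx => h.int x hx,
        fun x y hx hy hxy => h.inj x y hx hy (congrArg Subtype.val hxy), ?_⟩
    ext y
    rw [h.eq]
    constructor
    · rintro (hy | ⟨x, hx⟩)
      · exact Or.inl hy
      · exact Or.inr ⟨x, Subtype.ext hx⟩
    · rintro (hy | ⟨x, hx⟩)
      · exact Or.inl hy
      · exact Or.inr ⟨x, congrArg Subtype.val hx⟩

theorem built_univ {A : Set X} (h : Built ∅ A) : Built ∅ (univ : Set A) := by
  have h1 := built_sub h subset_rfl
  rwa [Subtype.coe_preimage_self] at h1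

/-- the copy of `X` in the wedge -/
def Base (X : Type) (s : S2) : Set (X × S2) := {z | z.2 = s}

theorem exists_att (x : X) (s : S2) : ∃ q : C(Dk 2, S2),
    (∀ z : Dk 2, ‖(z : Fin 2 → ℝ)‖ = 1 → q z = s) ∧
    Attach 2 (Base X s) (Wedge x s) ((ContinuousMap.const _ x).prodMk q) := by
  obtain ⟨q, h1, h2, h3, h4⟩ := exists_collapse s
  refine ⟨q, h1, fun z hz => h1 z hz, fun z hz => h2 z hz,
    fun z z' hz hz' h => h3 z z' hz hz' (congrArg Prod.snd h), ?_⟩
  ext ⟨y, t⟩
  constructor
  · rintro (h | h)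
    · obtain ⟨z, rfl⟩ := h4 t
      exact Or.inr ⟨z, Prod.ext h.symm rfl⟩
    · exact Or.inl h
  · rintro (h | ⟨z, h⟩)
    · exact Or.inr h
    · exact Or.inl (congrArg Prod.fst h).symm

theorem base_eq (s : S2) :
    Base X s = (⟨fun y => (y, s), by fun_prop⟩ : C(X, X × S2)) '' univ := by
  ext ⟨y, t⟩
  constructor
  · intro h
    exact ⟨y, trivial, Prod.ext rfl h.symm⟩
  · rintro ⟨y', -, h⟩
    exact (congrArg Prod.snd h).symm

theorem isClosed_base (s : S2) : IsClosed (Base X s) := isClosed_eq continuous_snd continuous_const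

theorem built_wedge (h : Built ∅ (univ : Set X)) (x : X) (s : S2) :
    Built ∅ (univ : Set (Wedge x s)) := by
  obtain ⟨q, -, hq⟩ := exists_att x s
  refine built_univ (Built.cell 2 _ ?_ hq)
  rw [base_eq]
  exact built_map _ (fun a b h => congrArg Prod.fst h) h

end Built

/-! ### The covering -/

/-- `E × S²` with the action on the first factor -/
def ES (_ : Type) (E : Type) : Type := E × S2

section ES

variable (G E : Type)

instance [TopologicalSpace E] : TopologicalSpace (ES G E) :=
  inferInstanceAs (TopologicalSpace (E × S2))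

instance [Group G] [MulAction G E] : MulAction G (ES G E) where
  smul g z := (g • z.1, z.2)
  one_smul z := Prod.ext (one_smul G z.1) rfl
  mul_smul g h z := Prod.ext (mul_smul g h z.1) rfl

instance [Group G] [TopologicalSpace E] [MulAction G E] [ContinuousConstSMul G E] :
    ContinuousConstSMul G (ES G E) where
  continuous_const_smul g := by
    change Continuous fun z : E × S2 => (g • z.1, z.2)
    fun_prop

variable {E}

/-- the covering `E × S² → X × S²` -/
def pS {X : Type} [TopologicalSpace X] [TopologicalSpace E] (p : C(E, X)) : C(ES G E, X × S2) :=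
  ⟨fun z : E × S2 => (p z.1, z.2), by fun_prop⟩

end ES

section

variable {G X E F : Type} [Group G] [TopologicalSpace X] [TopologicalSpace E] [MulAction G E]
  [ContinuousConstSMul G E] [TopologicalSpace F] [MulAction G F] [ContinuousConstSMul G F]
  {p : C(E, X)}

theorem quotS (hp : IsQuotientCoveringMap p G) : IsQuotientCoveringMap (pS G p) G := by
  have h1 : IsOpenQuotientMap (Prod.map p (id : S2 → S2)) :=
    hp.isOpenQuotientMap.prodMap IsOpenQuotientMap.id
  have h2 : IsQuotientMap (pS G p) := h1.isQuotientMap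
  refine { h2 with
    continuous_const_smul := continuous_const_smul
    apply_eq_iff_mem_orbit := ?_
    disjoint := ?_ }
  · intro a b
    constructor
    · intro h
      have h3 : p a.1 = p b.1 := congrArg Prod.fst h
      have h4 : a.2 = b.2 := congrArg (fun z : X × S2 => z.2) h
      obtain ⟨g, hg⟩ := hp.apply_eq_iff_mem_orbit.1 h3
      exact ⟨g, Prod.ext hg h4.symm⟩
    · rintro ⟨g, rfl⟩
      refine Prod.ext ?_ rfl
      exact hp.map_smul g
  · intro a
    obtain ⟨U, hU, hd⟩ := hp.disjoint a.1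
    refine ⟨(Prod.fst : E × S2 → E) ⁻¹' U, ?_, ?_⟩
    · exact (continuous_fst (X := E) (Y := S2)).continuousAt.preimage_mem_nhds hU
    · rintro g ⟨_, ⟨b, hb, rfl⟩, hb'⟩
      exact hd g ⟨g • b.1, ⟨b.1, hb, rfl⟩, hb'⟩

/-- the map induced on chains by an equivariant map -/
noncomputable def pushL (f : C(F, E)) (hf : ∀ (g : G) y, f (g • y) = g • f y) (n : ℕ) :
    SC G n F →ₗ[ZG G] SC G n E where
  toFun c := SC.mk G (push f n c.un)
  map_add' a b := map_add (push f n) a.un b.un
  map_smul' r c := push_smul f hf n r c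

theorem pushL_d (f : C(F, E)) (hf : ∀ (g : G) y, f (g • y) = g • f y) (n : ℕ)
    (x : SC G (n + 1) F) : SC.d G n E (pushL f hf (n + 1) x) = pushL f hf n (SC.d G n F x) :=
  push_bd f n x.un

theorem pushL_inj (f : C(F, E)) (hf : ∀ (g : G) y, f (g • y) = g • f y)
    (hi : Function.Injective f) (n : ℕ) : Function.Injective (pushL f hf n) :=
  Finsupp.mapDomain_injective fun _ _ h => ContinuousMap.ext fun x =>
    hi (congrArg (fun f : C(Dl (n + 1), E) => f x) h)

/-- The universal cover of the wedge with a sphere, and its chains. -/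
theorem wedge_step [T2Space X] [SimplyConnectedSpace E] (hp : IsQuotientCoveringMap p G)
    (x : X) (s : S2) :
    ∃ (E' : Type) (_ : TopologicalSpace E') (_ : MulAction G E') (_ : ContinuousConstSMul G E')
      (p' : C(E', Wedge x s)), IsQuotientCoveringMap p' G ∧ SimplyConnectedSpace E' ∧
      ∃ (i : ∀ n, SC G n E →ₗ[ZG G] SC G n E') (σ : SC G 2 E'),
        (∀ n, Function.Injective (i n)) ∧
        (∀ n y, SC.d G n E' (i (n + 1) y) = i n (SC.d G n E y)) ∧ SC.d G 1 E' σ = 0 ∧
        ∀ P : ∀ n, Submodule (ZG G) (SC G n E),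
          IsModel (fun n => SC G n E) (fun n => SC.d G n E) (fun _ => ⊤) P →
          (∀ (r : ZG G) y, r • σ = i 2 y → r = 0) ∧
          IsModel (fun n => SC G n E') (fun n => SC.d G n E') (fun _ => ⊤)
            (Function.update (fun n => (P n).map (i n)) 2
              ((P 2).map (i 2) ⊔ Submodule.span (ZG G) {σ})) := by
  obtain ⟨q, hq, hatt⟩ := exists_att x s
  obtain ⟨e, he⟩ := hp.surjective x
  have hpS := quotS hp
  let ι : C(E, ES G E) :=
    ⟨fun y => ((y, s) : E × S2), (by fun_prop : Continuous fun y : E => ((y, s) : E × S2))⟩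
  have hι : ∀ (g : G) y, ι (g • y) = g • ι y := fun _ _ => rfl
  have hιi : Function.Injective ι := fun a b h => congrArg (fun z : E × S2 => z.1) h
  let Ψ : C(Dk 2, ES G E) := ((ContinuousMap.const _ e).prodMk q : C(Dk 2, E × S2))
  have hΨ : ∀ z, pS G p (Ψ z) = ((ContinuousMap.const _ x).prodMk q) z := fun z =>
    Prod.ext he rfl
  let pr : C(ES G E, E) := ⟨fun z : E × S2 => z.1, continuous_fst⟩
  have hsc0 : SimplyConnectedSpace (pS G p ⁻¹' Base X s) := by
    let h : (pS G p ⁻¹' Base X s) ≃ₜ E :=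
      { toFun := fun z => pr z.1
        invFun := fun y => ⟨ι y, rfl⟩
        left_inv := fun z => Subtype.ext (Prod.ext rfl z.2.symm)
        right_inv := fun _ => rfl
        continuous_toFun := pr.continuous.comp continuous_subtype_val
        continuous_invFun := ι.continuous.subtype_mk _ }
    exact h.toHomotopyEquiv.simplyConnectedSpace
  have hsc : SimplyConnectedSpace (pS G p ⁻¹' Wedge x s) :=
    H316.d3 G _ _ _ hpS 2 le_rfl _ _ _ Ψ (isClosed_base s) hatt hΨ hsc0
  have hrange : ∀ n, LinearMap.range (pushL ι hι n) = YH.SA hpS (Base X s) n := by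
    intro n
    ext c
    constructor
    · rintro ⟨y, rfl⟩
      refine push_mem (A := univ) (fun y _ => rfl) ?_
      exact PR.Con_univ _
    · intro hc
      refine ⟨SC.mk G (push pr n c.un), SC.un_inj ?_⟩
      change push ι n (push pr n c.un) = c.un
      rw [← push_comp, H316.push_congr (g := ContinuousMap.id _) (fun z hz => ?_) (YH.mem_SA.1 hc),
        push_id]
      exact Prod.ext rfl hz.symm
  let _ := H956.resAct hpS (Wedge x s)
  have _ := H956.resCont hpS (Wedge x s)
  let ι' : C(E, (pS G p ⁻¹' Wedge x s : Set (ES G E))) :=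
    ⟨fun y => ⟨ι y, Or.inr rfl⟩, ι.continuous.subtype_mk _⟩
  have hι' : ∀ (g : G) y, ι' (g • y) = g • ι' y := fun _ _ => rfl
  let Ψ' : C(Dk 2, (pS G p ⁻¹' Wedge x s : Set (ES G E))) :=
    ⟨fun z => ⟨Ψ z, Or.inl he⟩, Ψ.continuous.subtype_mk _⟩
  have h1 : ∀ n y, H956.incl hpS (Wedge x s) n (pushL ι' hι' n y) = pushL ι hι n y :=
    fun n y => (push_comp _ _ n y.un).symm
  have h2 : H956.incl hpS (Wedge x s) 2 (SC.mk G (push Ψ' 2 zeta2)) = SC.mk G (push Ψ 2 zeta2) :=
    (push_comp _ _ 2 zeta2).symm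
  have h3 : SC.d G 1 (ES G E) (SC.mk G (push Ψ 2 zeta2)) = 0 :=
    H285.bd_sphere (e := ι e) Ψ (fun z hz => Prod.ext rfl (hq z hz)) H285.isFund_zeta2
  refine ⟨(pS G p ⁻¹' Wedge x s : Set (ES G E)), inferInstance, inferInstance, inferInstance,
    H956.resMap (pS G p) (Wedge x s), H956.res_isQuotientCoveringMap hpS _, hsc,
    pushL ι' hι', SC.mk G (push Ψ' 2 zeta2),
    pushL_inj ι' hι' fun a b h => hιi (congrArg Subtype.val h), pushL_d ι' hι', ?_, fun P hP => ?_⟩
  · apply H956.incl_injective hpS (Wedge x s) 1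
    rw [← H956.incl_d, h2, h3, map_zero]
  · have hM : YH.Mdl hpS (Base X s) (fun n => (P n).map (pushL ι hι n)) :=
      transfer_map (S := fun n => SC G n (ES G E)) (d := fun n => SC.d G n (ES G E)) hP
        (pushL ι hι) (pushL_inj ι hι hιi) hrange (pushL_d ι hι)
    obtain ⟨k1, k2⟩ := YH.step MS.main CL.main hpS (isClosed_base s) hatt hΨ H285.isFund_zeta2 hM
      (z := SC.mk G (push Ψ 2 zeta2)) (by rw [sub_self]; exact Submodule.zero_mem _) (by
        change SC.d G 1 (ES G E) (SC.mk G (push Ψ 2 zeta2)) ∈ _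
        rw [h3]
        exact Submodule.zero_mem _)
    refine ⟨fun r y h => k2 r ?_, ?_⟩
    · rw [← h2, ← map_smul, h, h1, ← hrange]
      exact ⟨y, rfl⟩
    · have k3 := H956.res_model hpS k1
      have hmap : ∀ n, (P n).map (pushL ι hι n) =
          ((P n).map (pushL ι' hι' n)).map (H956.incl hpS (Wedge x s) n) := by
        intro n
        rw [← Submodule.map_comp]
        congr 1
        exact LinearMap.ext fun y => (h1 n y).symm
      convert k3 using 2 with n
      by_cases hn : n = 2
      · subst hn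
        rw [Function.update_self, Function.update_self, hmap, ← h2,
          ← Set.image_singleton (f := H956.incl hpS (Wedge x s) 2), ← Submodule.map_span, ← Submodule.map_sup,
          Submodule.comap_map_eq_of_injective (H956.incl_injective hpS _ 2)]
      · rw [Function.update_of_ne hn, Function.update_of_ne hn, hmap,
          Submodule.comap_map_eq_of_injective (H956.incl_injective hpS _ n)]

end

end Vale.Agent.N246S
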