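import Vale.Agent.N246S.Uni
import Vale.Agent.N246S.Wedge
import Vale.Agent.P246.Dis.H87.Pres

/-! # P246: finite complexes have universal coverings -/

namespace Vale.Agent.N246S

open Topology Metric Set Vale.Agent.P246 Vale.Agent.P246.T Vale.Agent.P246.Dis

variable {X : Type} [TopologicalSpace X]

theorem norm_expd_one {n : ℕ} (z : Dk n) (hz : 1 / 2 < ‖(z : Fin n → ℝ)‖) :
    ‖(expd n 1 z : Fin n → ℝ)‖ = 1 := by
  have h1 : ((1 : I) : ℝ) = 1 := rfl
  change ‖((1 + ((1 : I) : ℝ)) / max 1 ((1 + ((1 : I) : ℝ)) * ‖(z : Fin n → ℝ)‖)) •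
    (z : Fin n → ℝ)‖ = 1
  rw [h1, max_eq_right (by linarith), norm_smul, Real.norm_of_nonneg (by positivity)]
  field_simp

theorem built_null [T2Space X] {B : Set X} (h : Built ∅ B) : ∀ x ∈ B, ∃ O : Set X, IsOpen O ∧
    x ∈ O ∧ (ContinuousMap.inclusion (inter_subset_right : O ∩ B ⊆ B)).Nullhomotopic := by
  induction h with
  | base => exact fun x hx => hx.elim
  | @cell A B n Φ hA h ih =>
    intro x hx
    have D := CC.main1 X n A B Φ (WH.built_closed isClosed_empty hA) h
    by_cases hxA : x ∈ A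
    · obtain ⟨O, hO, hxO, hN⟩ := ih x hxA
      obtain ⟨OW, hOW, hOW'⟩ := D.openW
      obtain ⟨ρ, hρ0, hρA, hρ⟩ := D.htpy
      obtain ⟨O', hO', hO''⟩ := isOpen_induced_iff.1
        (hO.preimage (f := fun y : B => (ρ (1, y) : X)) (by fun_prop))
      have hA1 : ∀ y : B, (y : X) ∈ OW → (ρ (1, y) : X) ∈ A := by
        intro y hy
        have h1 : (y : X) ∈ OW ∩ B := ⟨hy, y.2⟩
        rw [hOW'] at h1
        rcases D.cover y y.2 with h2 | ⟨g, z, hz⟩
        · rw [hρA 1 y h2]
          exact h2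
        · have h3 : y = ⟨Φ z, D.mem g z⟩ := Subtype.ext hz.symm
          rw [h3, hρ 1 g z]
          exact h.bdry _ (norm_expd_one z (h1.2 g z hz))
      have hO1 : ∀ y : B, (y : X) ∈ O' ↔ (ρ (1, y) : X) ∈ O := fun y =>
        Set.ext_iff.1 hO'' y
      refine ⟨OW ∩ O', hOW.inter hO', ⟨?_, ?_⟩, ?_⟩
      · have h1 : x ∈ OW ∩ B := by
          rw [hOW']
          refine ⟨hx, fun g z hz => ?_⟩
          by_contra hc
          exact h.int z (by linarith [not_lt.1 hc]) (hz ▸ hxA)
        exact h1.1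
      · refine (hO1 ⟨x, hx⟩).2 ?_
        rw [hρA 1 ⟨x, hx⟩ hxA]
        exact hxO
      · let j := ContinuousMap.inclusion (inter_subset_right : OW ∩ O' ∩ B ⊆ B)
        let r : C((OW ∩ O' ∩ B : Set X), (O ∩ A : Set X)) :=
          ⟨fun y => ⟨ρ (1, j y), (hO1 _).1 y.2.1.2, hA1 _ y.2.1.1⟩, by fun_prop⟩
        obtain ⟨c, hc⟩ := (hN.comp_left r).comp_right (ContinuousMap.inclusion D.sub)
        refine ⟨c, ContinuousMap.Homotopic.trans ?_ hc⟩
        exact ⟨⟨⟨fun q => ρ (q.1, j q.2), by fun_prop⟩, fun y => hρ0 _, fun y => rfl⟩⟩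
    · obtain ⟨g, z, rfl⟩ := (D.cover x hx).resolve_left hxA
      have hz1 : ‖(z : Fin n → ℝ)‖ < 1 :=
        lt_of_le_of_ne (mem_closedBall_zero_iff.1 z.2) fun h1 => hxA (h.bdry z h1)
      obtain ⟨r, hr1, hr2⟩ := exists_between hz1
      obtain ⟨O, hO, hO'⟩ := D.openV g {w | ‖(w : Fin n → ℝ)‖ < r}
        (isOpen_lt (by fun_prop) continuous_const) fun w hw => hw.trans hr2
      have hsub : closedBall (0 : Fin n → ℝ) r ⊆ closedBall 0 1 := closedBall_subset_closedBall hr2.le
      let f : C(closedBall (0 : Fin n → ℝ) r, B) :=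
        ⟨fun w => ⟨Φ (inclusion hsub w), D.mem g _⟩, by fun_prop⟩
      have hK : ∀ w : closedBall (0 : Fin n → ℝ) r,
          ‖((inclusion hsub w : Dk n) : Fin n → ℝ)‖ < 1 := fun w =>
        (mem_closedBall_zero_iff.1 w.2).trans_lt hr2
      have hf : IsEmbedding f := (f.continuous.isClosedEmbedding fun w w' hw =>
        inclusion_injective hsub (h.inj _ _ (hK w) (hK w') (congrArg Subtype.val hw))).isEmbedding
      let j := ContinuousMap.inclusion (inter_subset_right : O ∩ B ⊆ B)
      have hex : ∀ y : (O ∩ B : Set X), ∃ w, f w = j y := by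
        intro y
        obtain ⟨w, hw, he⟩ := hO'.le y.2
        exact ⟨⟨w, mem_closedBall_zero_iff.2 (le_of_lt hw)⟩, Subtype.ext he⟩
      choose u hu using hex
      have hcu : Continuous u := hf.continuous_iff.2 (j.continuous.congr fun y => (hu y).symm)
      have hc : ContractibleSpace (closedBall (0 : Fin n → ℝ) r) :=
        (convex_closedBall _ _).contractibleSpace
          ⟨0, mem_closedBall_self ((norm_nonneg _).trans hr1.le)⟩
      refine ⟨O, hO, (hO'.ge ⟨z, hr1, rfl⟩).1, ?_⟩
      have h5 := ((id_nullhomotopic (closedBall (0 : Fin n → ℝ) r)).comp_left ⟨u, hcu⟩).comp_right f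
      have h6 : f.comp ((ContinuousMap.id _).comp ⟨u, hcu⟩) = j := ContinuousMap.ext hu
      rwa [h6] at h5

/-- A finite connected CW complex has a universal covering. -/
theorem exists_univ (X : Type) [TopologicalSpace X] [T2Space X] [CWComplex (univ : Set X)]
    [CWComplex.Finite (univ : Set X)] [ConnectedSpace X] :
    ∃ (E : Type) (_ : TopologicalSpace E) (p : C(E, X)),
      IsCoveringMap p ∧ SimplyConnectedSpace E := by
  obtain ⟨hB, -, hl⟩ := CWB.main X
  have hpc : PathConnectedSpace X := PathConnectedSpace.of_locallyPathConnectedSpace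
  refine Uni.exists_cover X fun x => ?_
  obtain ⟨O, hO, hx, h⟩ := built_null hB x trivial
  exact ⟨O, hO, hx, (h.comp_left (ContinuousMap.inclusion (subset_inter subset_rfl
    (subset_univ O)))).comp_right ⟨Subtype.val, continuous_subtype_val⟩⟩

/-- the same, with the action of the fundamental group -/
theorem exists_univ' (X : Type) [TopologicalSpace X] [T2Space X] [CWComplex (univ : Set X)]
    [CWComplex.Finite (univ : Set X)] [ConnectedSpace X] (x : X) {G : Type} [Group G]
    (e : FundamentalGroup X x ≃* G) :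
    ∃ (E : Type) (_ : TopologicalSpace E) (_ : MulAction G E) (_ : ContinuousConstSMul G E)
      (p : C(E, X)), IsQuotientCoveringMap p G ∧ SimplyConnectedSpace E := by
  obtain ⟨E, _, p, hp, hsc⟩ := exists_univ X
  obtain ⟨-, -, hl⟩ := CWB.main X
  have hpc : PathConnectedSpace X := PathConnectedSpace.of_locallyPathConnectedSpace
  have hlE : LocallyPathConnectedSpace E := AC.locallyPathConnectedSpace hp.isLocalHomeomorph
  obtain ⟨_, hq⟩ := H87.exists_action' hp x e
  exact ⟨E, inferInstance, inferInstance, hq.toContinuousConstSMul, p, hq, hsc⟩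

end Vale.Agent.N246S
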