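import Mathlib.Analysis.InnerProductSpace.PiL2

/-! # P246: the wedge with a two-sphere -/

namespace Vale.Agent.N246S

/-- The unit sphere of `ℝ^3`. -/
abbrev S2 : Type := Metric.sphere (0 : EuclideanSpace ℝ (Fin 3)) 1

/-- The wedge `X ∨ S²` at the base points `x`, `s`: the subspace `X × {s} ∪ {x} × S²` of
`X × S²`. -/
def Wedge {X : Type} (x : X) (s : S2) : Set (X × S2) := {z | z.1 = x ∨ z.2 = s}

end Vale.Agent.N246S
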