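import Vale.Agent.N246S.Cover
import Vale.Agent.P246.Dis.H140.Cover
import Vale.Agent.P246.Dis.H821.Euler

/-! # P246: a complex which is dominated by a finite two-complex satisfies the D(2) condition -/

namespace Vale.Agent.N246S

open Topology Metric Set Vale.Agent.P246 Vale.Agent.P246.T Vale.Agent.P246.Dis
open Vale.Agent.P246.Dis.H821 (BuiltN)

section

variable {G X E : Type} [Group G] [TopologicalSpace X] [T2Space X]
  [TopologicalSpace E] [MulAction G E] [ContinuousConstSMul G E] {p : C(E, X)}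

/-- a model which vanishes in the degrees without cells -/
theorem builtN_model (hp : IsQuotientCoveringMap p G) {c : ℕ → ℕ} {B : Set X} (h : BuiltN c B) :
    IsClosed B ∧ ∃ P, YH.Mdl hp B P ∧ ∀ n, c n = 0 → P n = ⊥ := by
  induction h with
  | base => exact ⟨isClosed_empty, _, YH.mdl_empty hp, fun _ _ => rfl⟩
  | @cell c A B n Φ _ h ih =>
    obtain ⟨hA, P, hP, hc⟩ := ih
    obtain ⟨Ψ, hΨ⟩ := MX.exists_lift hp Φ
    obtain ⟨ζ, hζ⟩ := fund.1 n
    obtain ⟨z, hz, hz'⟩ : ∃ z : SC G n E, z - SC.mk G (push Ψ n ζ) ∈ YH.SA hp A n ∧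
        DRel (fun n => SC G n E) (fun n => SC.d G n E) P n z := by
      cases n with
      | zero =>
        refine ⟨SC.mk G (push Ψ 0 ζ), ?_, trivial⟩
        rw [sub_self]
        exact Submodule.zero_mem _
      | succ m =>
        have h1 : bd m (push Ψ (m + 1) ζ) ∈ Con (p ⁻¹' A) m := by
          rw [push_bd]
          refine push_mem (fun x hx => ?_) hζ.cyc
          change p (Ψ x) ∈ A
          rw [hΨ]
          exact h.bdry x hx
        obtain ⟨y, hy, -, z', hz', he⟩ := hP.surj m (SC.mk G (bd m (push Ψ (m + 1) ζ))) h1 (by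
          cases m with
          | zero => trivial
          | succ m => exact SC.un_inj (PR.bd_bd m _))
        refine ⟨SC.mk G (push Ψ (m + 1) ζ) - z', ?_, ?_⟩
        · rw [sub_sub_cancel_left]
          exact Submodule.neg_mem _ hz'
        · change SC.d G m E (SC.mk G (push Ψ (m + 1) ζ) - z') ∈ P m
          have e : SC.d G m E (SC.mk G (push Ψ (m + 1) ζ) - z') = y := by
            rw [map_sub, sub_eq_iff_eq_add]
            exact he
          rw [e]
          exact hy
    refine ⟨?_, _, (YH.step MS.main CL.main hp hA h hΨ hζ hP hz hz').1, fun k hk => ?_⟩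
    · rw [h.eq]
      exact hA.union (isCompact_range Φ.continuous).isClosed
    · have hkn : k ≠ n := by
        rintro rfl
        rw [Function.update_self] at hk
        exact Nat.succ_ne_zero _ hk
      rw [Function.update_of_ne hkn] at hk ⊢
      exact hc k hk

theorem model_two [CWComplex (univ : Set X)] [CWComplex.Finite (univ : Set X)]
    (hp : IsQuotientCoveringMap p G) (h : ∀ m > 2, IsEmpty (RelCWComplex.cell (univ : Set X) m)) :
    ∃ P : ∀ n, Submodule (ZG G) (SC G n E),
      IsModel (fun n => SC G n E) (fun n => SC.d G n E) (fun _ => ⊤) P ∧ ∀ n, P (n + 3) = ⊥ := by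
  obtain ⟨-, P, hP, hc⟩ := builtN_model hp (H821.builtN_cw X)
  have e : (fun n => YH.SA hp univ n : ∀ n, Submodule (ZG G) (SC G n E)) = fun _ => ⊤ := by
    funext n
    rw [eq_top_iff]
    exact fun x _ => PR.Con_univ _
  refine ⟨P, e ▸ hP, fun n => hc _ ?_⟩
  have := h (n + 3) (by omega)
  exact Nat.card_of_isEmpty

end

section

variable {G E : Type} [Group G] [TopologicalSpace E] [MulAction G E] [ContinuousConstSMul G E]

/-- the chain homotopy of an equivariant homotopy -/
noncomputable def hDL (H : C(I × E, E)) (hH : ∀ (g : G) t y, H (t, g • y) = g • H (t, y))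
    (n : ℕ) : SC G n E →ₗ[ZG G] SC G (n + 1) E where
  toFun c := SC.mk G (PR.hD H n c.un)
  map_add' a b := map_add (PR.hD H n) a.un b.un
  map_smul' r c := by
    apply SC.un_inj
    rw [RingHom.id_apply, SC.un_smul, SC.un_mk, SC.un_smul, SC.un_mk, Finsupp.sum, Finsupp.sum,
      map_sum]
    refine Finset.sum_congr rfl fun g _ => ?_
    rw [map_smul, PR.hD_push, PR.push_hD]
    congr 3
    exact ContinuousMap.ext fun q => hH g q.1 q.2

end

/-- A finite connected complex which is dominated by a finite complex of dimension at most two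
satisfies the D(2) condition. -/
theorem d2_of_dom (X : Type) [TopologicalSpace X] [T2Space X] [CWComplex (univ : Set X)]
    [CWComplex.Finite (univ : Set X)] [ConnectedSpace X] (Y : Type) [TopologicalSpace Y]
    [T2Space Y] [CWComplex (univ : Set Y)] [CWComplex.Finite (univ : Set Y)]
    (hY : ∀ m > 2, IsEmpty (RelCWComplex.cell (univ : Set Y) m)) (i : C(X, Y)) (r : C(Y, X))
    (h : (r.comp i).Homotopic (ContinuousMap.id X)) : D2Condition X := by
  obtain ⟨x⟩ : Nonempty X := inferInstance
  obtain ⟨E, _, _, _, p, hp, hsc⟩ := exists_univ' X x (MulEquiv.refl _)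
  set G := FundamentalGroup X x
  obtain ⟨_, hr, _, hq⟩ := H140.PB.exists_action r p hp
  obtain ⟨P, hP, hP3⟩ := model_two hq hY
  obtain ⟨K⟩ := h.symm
  let K' : C(I × E, X) := K.toContinuousMap.comp (PR.pI p)
  have hK0 : ∀ y, K' (0, y) = p (ContinuousMap.id E y) := fun y => K.apply_zero (p y)
  let H := hp.isCoveringMap.liftHomotopy K' (ContinuousMap.id E) hK0
  have hH : ∀ q, p (H q) = K' q := congrFun (hp.isCoveringMap.liftHomotopy_lifts K' _ hK0)
  have hH0 : ∀ y, H (0, y) = y := hp.isCoveringMap.liftHomotopy_zero K' _ hK0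
  have hHg : ∀ (g : G) t y, H (t, g • y) = g • H (t, y) := by
    intro g t y
    refine congrFun (AC.lift_unique hp.isCoveringMap (g := fun t : I => H (t, g • y))
      (g' := fun t : I => g • H (t, y)) (by fun_prop) (by fun_prop) (fun t => ?_) 0 ?_) t
    · rw [hp.map_smul, hH, hH]
      change K (t, p (g • y)) = K (t, p y)
      rw [hp.map_smul]
    · rw [hH0, hH0]
  let j : C(E, H140.PB G r p) :=
    ⟨fun y => ⟨(i (p y), H (1, y)), ((hH (1, y)).trans (K.apply_one (p y))).symm⟩,
      Continuous.subtype_mk (by fun_prop) _⟩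
  have hj : ∀ (g : G) y, j (g • y) = g • j y := by
    intro g y
    have h1 : H140.PB.q r p (j (g • y)) = H140.PB.q r p (g • j y) := by
      rw [hq.map_smul]
      change i (p (g • y)) = i (p y)
      rw [hp.map_smul]
    have h2 : H140.PB.r r p (j (g • y)) = H140.PB.r r p (g • j y) := by
      rw [hr]
      exact hHg g 1 y
    exact Subtype.ext (Prod.ext h1 h2)
  let J := pushL j hj
  let R := pushL (H140.PB.r r p) hr
  have key : ∀ n (c : SC G (n + 1) E), R (n + 1) (J (n + 1) c) =
      c + SC.d G (n + 1) E (hDL H hHg (n + 1) c) + hDL H hHg n (SC.d G n E c) := by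
    intro n c
    apply SC.un_inj
    have h1 := PR.bd_hD H c.un
    have h2 : PR.at' H 0 = ContinuousMap.id E := ContinuousMap.ext hH0
    have h3 : PR.at' H 1 = (H140.PB.r r p).comp j := rfl
    rw [h2, h3, push_id, push_comp] at h1
    change push _ _ (push _ _ c.un) =
      c.un + bd (n + 1) (PR.hD H (n + 1) c.un) + PR.hD H n (bd n c.un)
    rw [h1]
    abel
  refine H956.d2Condition_of hp (fun n hn c hc => ?_) ?_
  · obtain ⟨m, rfl⟩ : ∃ m, n = m + 2 := ⟨n - 2, by omega⟩
    have hc' : SC.d G (m + 2) E (SC.mk G c) = 0 := hc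
    obtain ⟨y, hy, -, w, -, hw⟩ := hP.surj (m + 3) (J (m + 3) (SC.mk G c)) trivial (by
      change SC.d G (m + 2) _ (J (m + 3) (SC.mk G c)) = 0
      rw [pushL_d, hc', map_zero])
    rw [hP3, Submodule.mem_bot] at hy
    rw [hy, zero_add] at hw
    have h1 := key (m + 2) (SC.mk G c)
    rw [hw, hc', map_zero, add_zero, ← pushL_d] at h1
    refine ⟨(R (m + 4) w - hDL H hHg (m + 3) (SC.mk G c)).un, ?_⟩
    change SC.d G (m + 3) E (R (m + 4) w - hDL H hHg (m + 3) (SC.mk G c)) = SC.mk G c
    rw [map_sub]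
    exact sub_eq_of_eq_add h1
  · intro M _ _ _ f hf hcob
    let φ := A1x.toLin 3 f hf
    have hφ : ∀ y, φ (SC.d G 3 E y) = 0 := fun y => by
      refine A1x.lin_ext 4 (f := φ.comp (SC.d G 3 E)) (g := 0) (fun τ => ?_) y
      rw [LinearMap.comp_apply, A1x.lin_bd, LinearMap.zero_apply]
      simp only [φ, A1x.toLin_single]
      exact hcob τ
    obtain ⟨g, L, -, hg⟩ := A1x.exists_g (fun n y => A1x.d_d n y) hP (fun n => by
      have := A1f.free hq n
      infer_instance)
    let ψ : SC G 2 E →ₗ[ZG G] M :=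
      -(φ.comp ((R 3).comp ((L 2).comp (J 2)))) - φ.comp (hDL H hHg 2)
    have hψ : ∀ c, φ c = ψ (SC.d G 2 E c) := by
      intro c
      have h1 := congrArg φ (key 2 c)
      have h2 := hg 2 (J 3 c)
      have h3 : ((g 3 (J 3 c) : P 3) : SC G 3 (H140.PB G r p)) = 0 := by
        exact (Submodule.mem_bot _).1 ((hP3 0).le (g 3 (J 3 c)).2)
      replace h2 := h2.trans (congrArg (fun w => w) rfl)
      erw [h3] at h2
      have h5 := congrArg (fun w => φ (R 3 w)) h2
      simp only [map_add, map_zero] at h5 h1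
      rw [← pushL_d, hφ, add_zero, pushL_d] at h5
      rw [hφ, add_zero] at h1
      change φ c = -φ (R 3 (L 2 (J 2 (SC.d G 2 E c)))) - φ (hDL H hHg 2 (SC.d G 2 E c))
      rw [← eq_neg_of_add_eq_zero_left h5, h1, add_sub_cancel_right]
    refine ⟨fun σ => ψ (SC.mk G (Finsupp.single σ 1)), fun g σ => A1x.lin_single 2 ψ g σ,
      fun σ => ?_⟩
    rw [← A1x.lin_bd, ← hψ, A1x.toLin_single]

end Vale.Agent.N246S
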