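import Vale.Agent.N246S.Defs
import Vale.Agent.P246W26.Stmt
import Vale.Agent.P246.T.Stmt
import Mathlib.GroupTheory.PresentedGroup

/-! # P246: domination, cancellation of spheres, Euler characteristics -/

namespace Vale.Agent.N246S

open Topology Set Vale.Agent.P246 Vale.Agent.P246.T Vale.Agent.P246W26

/-- `X` has no cells of dimension greater than `n`. -/
def DimLE (X : Type) [TopologicalSpace X] [CWComplex (univ : Set X)] (n : ℕ) : Prop :=
  ∀ m > n, IsEmpty (RelCWComplex.cell (univ : Set X) m)

/-- The Euler characteristic: the alternating sum of the numbers of cells. -/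
noncomputable def euler (X : Type) [TopologicalSpace X] [CWComplex (univ : Set X)] : ℤ :=
  ∑ᶠ n : ℕ, (-1 : ℤ) ^ n * (Nat.card (RelCWComplex.cell (univ : Set X) n) : ℤ)

/-- `X` is a homotopy retract of a finite CW complex of dimension at most two. -/
def Dominated (X : Type) [TopologicalSpace X] : Prop :=
  ∃ (Y : Type) (_ : TopologicalSpace Y) (_ : T2Space Y) (_ : CWComplex (univ : Set Y)),
    CWComplex.Finite (univ : Set Y) ∧ DimLE Y 2 ∧
      ∃ (i : C(X, Y)) (r : C(Y, X)), (r.comp i).Homotopic (ContinuousMap.id X)

/-- `X ∨ S²` is homotopy equivalent to a finite CW complex of dimension at most two, but not to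
`Z ∨ S²` with a finite CW complex `Z` of dimension at most two. -/
def OneSphere (X : Type) [TopologicalSpace X] : Prop :=
  ∀ (x : X) (s : S2), HasFiniteTwoModel (Wedge x s) ∧
    ∀ (Z : Type) [TopologicalSpace Z] [T2Space Z] [CWComplex (univ : Set Z)]
      [CWComplex.Finite (univ : Set Z)], DimLE Z 2 → ∀ (z : Z) (t : S2),
      IsEmpty (ContinuousMap.HomotopyEquiv (Wedge z t) (Wedge x s))

/-- There is an exact sequence `ℤG^b → ℤG^a → ℤG → ℤ → 0` such that `n - m < a - b` for every
presentation of `G` with `n` generators and `m` relators. -/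
def SwanGap (G : Type) [Group G] : Prop :=
  ∃ (a b : ℕ) (d₂ : (Fin b → ZG G) →ₗ[ZG G] (Fin a → ZG G)) (d₁ : (Fin a → ZG G) →ₗ[ZG G] ZG G),
    Function.Exact d₂ d₁ ∧ CokerTrivial d₁ ∧ ∀ (n m : ℕ) (r : Fin m → FreeGroup (Fin n)),
      Nonempty (PresentedGroup (range r) ≃* G) → n + b < a + m

/-- `G` is the fundamental group of a finite connected three-dimensional `D(2)` complex `X` with
one three-cell which has no finite two-dimensional model, is dominated by a finite two-complex,
becomes two-dimensional after the wedge with one sphere which cannot be cancelled, and has a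
smaller Euler characteristic than all finite connected two-complexes with group `G`. -/
def Exotic (G : Type) [Group G] : Prop :=
  ∃ (X : Type) (_ : TopologicalSpace X) (_ : T2Space X) (_ : CWComplex (univ : Set X)),
    CWComplex.Finite (univ : Set X) ∧ ConnectedSpace X ∧ DimLE X 3 ∧
    Nat.card (RelCWComplex.cell (univ : Set X) 3) = 1 ∧
    (∀ x : X, Nonempty (FundamentalGroup X x ≃* G)) ∧ D2Cell X ∧ ¬ HasFiniteTwoModel X ∧
    Dominated X ∧ OneSphere X ∧
    ∀ (Y : Type) [TopologicalSpace Y] [T2Space Y] [CWComplex (univ : Set Y)]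
      [CWComplex.Finite (univ : Set Y)] [ConnectedSpace Y], DimLE Y 2 → ∀ y : Y,
      Nonempty (FundamentalGroup Y y ≃* G) → euler X < euler Y

end Vale.Agent.N246S
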