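import Vale.Agent.N246S.Main
import Vale.Agent.N246S.Stmt

/-! # P246: the families of exotic groups -/

namespace Vale.Agent.N246S

open Topology Set Subgroup Vale.Agent.P246 Vale.Agent.P246.T Vale.Agent.P246.Dis
open Vale.Agent.P246.Dis.H52 Vale.Agent.N246 Vale.Agent.P246W26

variable {G : Type} [Group G] {d : ℕ}

theorem dom_cell (X : Type) [TopologicalSpace X] [T2Space X] [CWComplex (univ : Set X)]
    [CWComplex.Finite (univ : Set X)] [ConnectedSpace X] (h : Dominated X) : D2Cell X := by
  obtain ⟨Y, _, _, _, _, hY, i, r, h⟩ := h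
  exact (d2_iff X).2 (d2_of_dom X Y hY i r h)

theorem exotic_of (hdef : ∀ Q : FinPresentation G, Q.gens < Q.rels + d) (P : FinPresentation G)
    (hd : P.gens + 1 = P.rels + d) (j0 : Fin P.rels) (β : Fin P.rels → ZG G)
    (hβ : fox2 P β = 0) (h1 : β j0 = 1) : Exotic G := by
  obtain ⟨X, _, _, hcon, _, hf, hpi, hD2, c0, c1, c2, c3, hdim, hW⟩ :=
    block G P β (LinearMap.proj j0) hβ h1
  obtain ⟨x⟩ : Nonempty X := inferInstance
  obtain ⟨e⟩ := hpi x
  have hN : ∀ n ≥ 4, Nat.card (RelCWComplex.cell (univ : Set X) n) = 0 := fun n hn => by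
    have := hdim n (by omega)
    exact Nat.card_of_isEmpty
  have hchi : H821.chi X = 1 - d := by
    rw [H821.chi_eq_sum X hN]
    simp only [Finset.sum_range_succ, Finset.sum_range_zero, c0, c1, c2, c3]
    norm_num
    omega
  refine ⟨X, inferInstance, inferInstance, inferInstance, hf, hcon, hdim, c3, hpi,
    (d2_iff X).2 hD2, no_two_model' hdef X x e hD2 hchi.le, ?_, fun y s => ⟨(hW y s).has, ?_⟩, ?_⟩
  · obtain ⟨s⟩ : Nonempty S2 := (NormedSpace.sphere_nonempty.2 zero_le_one).to_subtype
    obtain ⟨Y, i1, i2, i3, hY, hY2, -, -, -, ⟨k⟩⟩ := hW x s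
    exact ⟨Y, i1, i2, i3, hY, hY2, retract_wedge x s k⟩
  · intro Z _ _ _ _ hZ z t
    obtain ⟨e'⟩ := hpi y
    exact no_cancel hdef hd X y e' s (hW y s) Z hZ z t
  · rintro Y _ _ _ _ _ hY y ⟨e'⟩
    have h2 := gap hdef Y hY y e'
    change H821.chi X < H821.chi Y
    rw [hchi, H821.chi_dim_two Y hY]
    omega

theorem swan_of (hdef : ∀ Q : FinPresentation G, Q.gens < Q.rels + d) (P : FinPresentation G)
    (hd : P.gens + 1 = P.rels + d) (j0 : Fin P.rels) (β : Fin P.rels → ZG G)
    (hβ : fox2 P β = 0) (h1 : β j0 = 1) : SwanGap G := by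
  have hex := Q24.fox_exact P
  have haug := Q24.fox_aug P
  have h12 := A2.fox12 (Pr := P)
  obtain ⟨a, b, x, r, hs, hk⟩ := P
  cases b with
  | zero => exact j0.elim0
  | succ b =>
    let P : FinPresentation G := ⟨a, b + 1, x, r, hs, hk⟩
    let d2 : (Fin b → ZG G) →ₗ[ZG G] (Fin a → ZG G) :=
      lmap fun j => foxWord x (r (j0.succAbove j)).toWord
    have k1 : ∀ w : Fin (b + 1) → ZG G, w j0 = 0 → fox2 P w = d2 fun j => w (j0.succAbove j) := by
      intro w hw
      change Fintype.linearCombination _ _ w = Fintype.linearCombination _ _ _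
      rw [Fintype.linearCombination_apply, Fintype.linearCombination_apply,
        Fin.sum_univ_succAbove _ j0, hw, zero_smul, zero_add]
    refine ⟨a, b, d2, fox1 P, fun u => ⟨fun hu => ?_, ?_⟩,
      ⟨Q24.aug G, fun n => ⟨n, by simp⟩, map_add _, fun g y => ?_, haug⟩, ?_⟩
    · obtain ⟨v, rfl⟩ := hex u hu
      refine ⟨_, (k1 (v - v j0 • β) ?_).symm.trans ?_⟩
      · rw [Pi.sub_apply, Pi.smul_apply, h1, smul_eq_mul, mul_one, sub_self]
      · rw [map_sub, map_smul]
        erw [hβ]
        rw [smul_zero, sub_zero]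
        rfl
    · rintro ⟨v, rfl⟩
      have h3 := k1 (Fin.insertNth j0 0 v) (Fin.insertNth_apply_same _ _ _)
      simp only [Fin.insertNth_apply_succAbove] at h3
      rw [← h3]
      exact h12 _
    · rw [smul_eq_mul, map_mul, Q24.aug_elt, one_mul]
    · rintro n m q ⟨e⟩
      have h4 : FreeGroup.lift (fun i => e (PresentedGroup.of i)) =
          e.toMonoidHom.comp (PresentedGroup.mk (range q)) := by
        apply FreeGroup.ext_hom
        intro i
        rw [FreeGroup.lift_apply_of]
        rfl
      have h5 := hdef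
        { gens := n
          rels := m
          x := fun i => e (PresentedGroup.of i)
          r := q
          surj := by
            rw [h4]
            exact e.surjective.comp (PresentedGroup.mk_surjective _)
          ker_eq := by
            rw [h4, MonoidHom.ker_comp_of_injective _ _ e.injective]
            exact QuotientGroup.ker_mk' _ }
      change a + 1 = b + 1 + d at hd
      change n < m + d at h5
      omega

theorem lift_comp {H : Type} [Group H] (φ : G ≃* H) {n : ℕ} (x : Fin n → G) :
    FreeGroup.lift (fun i => φ (x i)) = φ.toMonoidHom.comp (FreeGroup.lift x) := by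
  apply FreeGroup.ext_hom
  intro i
  rw [FreeGroup.lift_apply_of, MonoidHom.comp_apply, FreeGroup.lift_apply_of]
  rfl

/-- transport of a presentation -/
def presMap {H : Type} [Group H] (φ : G ≃* H) (P : FinPresentation G) : FinPresentation H where
  gens := P.gens
  rels := P.rels
  x := fun i => φ (P.x i)
  r := P.r
  surj := by
    rw [lift_comp]
    exact φ.surjective.comp P.surj
  ker_eq := by rw [lift_comp, MonoidHom.ker_comp_of_injective _ _ φ.injective, P.ker_eq]

theorem crit {H : Type} [Group H] (φ : G ≃* H)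
    (hdef : ∀ Q : FinPresentation G, Q.gens < Q.rels + d) (P : FinPresentation G)
    (hd : P.gens + 1 = P.rels + d) (j0 : Fin P.rels)
    (hj : P.r j0 ∈ normalClosure (P.r '' {j | j ≠ j0}) ⊔
      ⁅(FreeGroup.lift P.x).ker, (FreeGroup.lift P.x).ker⁆) : Exotic H ∧ SwanGap H := by
  have hdef' : ∀ Q : FinPresentation H, Q.gens < Q.rels + d := fun Q => hdef (presMap φ.symm Q)
  obtain ⟨β, hβ, h1⟩ := fox_of_mem (presMap φ P) j0 (by
    rw [(presMap φ P).ker_eq]
    rw [P.ker_eq] at hj
    exact hj)
  exact ⟨exotic_of hdef' (presMap φ P) hd j0 β hβ h1, swan_of hdef' (presMap φ P) hd j0 β hβ h1⟩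

theorem wall : Exotic WallGroup ∧ SwanGap WallGroup := by
  obtain ⟨φ⟩ := exists_equiv
  exact crit (d := 1) φ (fun Q => Nat.lt_succ_of_le (gens_le core Q)) PrA rfl (2 : Fin 3)
    (mem_of_fox PrA (2 : Fin 3) betaA fox2_betaA rfl)

theorem freeProd {n m d : ℕ} (q : Fin m → FreeGroup (Fin n)) (hd : n = m + d)
    (e : Abelianization (PresentedGroup (range q)) ≃* Multiplicative (Fin d → ℤ)) :
    Exotic (Monoid.Coprod WallGroup (PresentedGroup (range q))) ∧
      SwanGap (Monoid.Coprod WallGroup (PresentedGroup (range q))) := by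
  let r : Fin m → FreeGroup (Fin (3 + n)) := fun j => FreeGroup.map (Fin.natAdd 3) (q j)
  let x : Fin (3 + n) → Monoid.Coprod WallGroup (PresentedGroup (range q)) :=
    Fin.append (fun i => Monoid.Coprod.inl (PresentedGroup.of i))
      (fun i => Monoid.Coprod.inr (PresentedGroup.of i))
  have e1 : (FreeGroup.lift x).comp (FreeGroup.map (Fin.castAdd n)) =
      Monoid.Coprod.inl.comp (PresentedGroup.mk wallRels) := by
    apply FreeGroup.ext_hom
    intro i
    rw [MonoidHom.comp_apply, FreeGroup.map.of, FreeGroup.lift_apply_of]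
    exact Fin.append_left _ _ i
  have e2 : (FreeGroup.lift x).comp (FreeGroup.map (Fin.natAdd 3)) =
      Monoid.Coprod.inr.comp (PresentedGroup.mk (range q)) := by
    apply FreeGroup.ext_hom
    intro i
    rw [MonoidHom.comp_apply, FreeGroup.map.of, FreeGroup.lift_apply_of]
    exact Fin.append_right _ _ i
  have hx : ∀ w ∈ extRels r, FreeGroup.lift x w = 1 := by
    rintro _ (⟨w, hw, rfl⟩ | ⟨j, rfl⟩)
    · rw [← MonoidHom.comp_apply, e1, MonoidHom.comp_apply, PresentedGroup.one_of_mem hw, map_one]
    · change FreeGroup.lift x (FreeGroup.map (Fin.natAdd 3) (q j)) = 1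
      rw [← MonoidHom.comp_apply, e2, MonoidHom.comp_apply,
        PresentedGroup.one_of_mem (mem_range_self j), map_one]
  have key : ∀ {k : ℕ} (f : Fin k → Fin (3 + n)) (w : FreeGroup (Fin k)),
      FreeGroup.lift (fun i => (PresentedGroup.of (f i) : PresentedGroup (extRels r))) w =
        PresentedGroup.mk (extRels r) (FreeGroup.map f w) := by
    intro k f w
    have : FreeGroup.lift (fun i => (PresentedGroup.of (f i) : PresentedGroup (extRels r))) =
        (PresentedGroup.mk (extRels r)).comp (FreeGroup.map f) := by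
      apply FreeGroup.ext_hom
      intro i
      rw [FreeGroup.lift_apply_of, MonoidHom.comp_apply, FreeGroup.map.of]
      rfl
    rw [this]
    rfl
  have h1 : ∀ w ∈ wallRels, FreeGroup.lift
      (fun i => (PresentedGroup.of (Fin.castAdd n i) : PresentedGroup (extRels r))) w = 1 := by
    intro w hw
    rw [key]
    exact PresentedGroup.one_of_mem (Or.inl ⟨w, hw, rfl⟩)
  have h2 : ∀ w ∈ range q, FreeGroup.lift
      (fun i => (PresentedGroup.of (Fin.natAdd 3 i) : PresentedGroup (extRels r))) w = 1 := by
    rintro _ ⟨j, rfl⟩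
    rw [key]
    exact PresentedGroup.one_of_mem (Or.inr ⟨j, rfl⟩)
  have hl : ∀ i, PresentedGroup.toGroup hx (PresentedGroup.of (Fin.castAdd n i)) =
      Monoid.Coprod.inl (PresentedGroup.of i) := fun i =>
    (PresentedGroup.toGroup.of hx).trans (Fin.append_left _ _ i)
  have hr : ∀ i, PresentedGroup.toGroup hx (PresentedGroup.of (Fin.natAdd 3 i)) =
      Monoid.Coprod.inr (PresentedGroup.of i) := fun i =>
    (PresentedGroup.toGroup.of hx).trans (Fin.append_right _ _ i)
  let φ : PresentedGroup (extRels r) ≃* Monoid.Coprod WallGroup (PresentedGroup (range q)) :=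
    MonoidHom.toMulEquiv (PresentedGroup.toGroup hx)
      (Monoid.Coprod.lift (PresentedGroup.toGroup h1) (PresentedGroup.toGroup h2))
      (by
        refine PresentedGroup.ext fun i => ?_
        rw [MonoidHom.comp_apply, MonoidHom.id_apply]
        induction i using Fin.addCases with
        | left i => rw [hl, Monoid.Coprod.lift_apply_inl, PresentedGroup.toGroup.of]
        | right i => rw [hr, Monoid.Coprod.lift_apply_inr, PresentedGroup.toGroup.of])
      (by
        apply Monoid.Coprod.hom_ext
        · refine PresentedGroup.ext fun i => ?_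
          simp only [MonoidHom.comp_apply, MonoidHom.id_apply, Monoid.Coprod.lift_apply_inl,
            PresentedGroup.toGroup.of h1, hl]
        · refine PresentedGroup.ext fun i => ?_
          simp only [MonoidHom.comp_apply, MonoidHom.id_apply, Monoid.Coprod.lift_apply_inr,
            PresentedGroup.toGroup.of h2, hr])
  refine crit (d := 1 + d) φ (defic (Span.congr φ (span_wall.coprod (span_of_equiv e)))
    (obstrExt r (Monoid.Coprod.fst.comp (PresentedGroup.toGroup hx)) fun i => ?_)) (PrExt r)
    (by change 3 + n + 1 = 3 + m + (1 + d); omega) (Fin.castAdd m (2 : Fin 3)) ?_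
  · rw [MonoidHom.comp_apply, hl, Monoid.Coprod.fst_apply_inl]
  · have h := gapExt r
    rw [← ker_ext r] at h
    exact h

theorem presented {n m d : ℕ} (r : Fin m → FreeGroup (Fin n)) (s : FreeGroup (Fin n))
    (hd : n = m + d)
    (hs : s ∈ normalClosure (range r) ⊔
      ⁅normalClosure (insert s (range r)), normalClosure (insert s (range r))⁆)
    (e : Abelianization (PresentedGroup (insert s (range r))) ≃* Multiplicative (Fin d → ℤ))
    (h : VisibleTorsion (PresentedGroup (insert s (range r)))) :
    Exotic (PresentedGroup (insert s (range r))) ∧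
      SwanGap (PresentedGroup (insert s (range r))) := by
  have hk : (FreeGroup.lift fun i =>
      (PresentedGroup.of i : PresentedGroup (insert s (range r)))).ker =
      normalClosure (insert s (range r)) := by
    rw [lift_of]
    exact QuotientGroup.ker_mk' _
  let P : FinPresentation (PresentedGroup (insert s (range r))) :=
    { gens := n
      rels := m + 1
      x := fun i => PresentedGroup.of i
      r := Fin.cons s r
      surj := by
        rw [lift_of]
        exact PresentedGroup.mk_surjective _
      ker_eq := by rw [hk, Fin.range_cons] }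
  refine crit (MulEquiv.refl _) (defic (span_of_equiv e) h) P (by change n + 1 = m + 1 + d; omega)
    (0 : Fin (m + 1)) ?_
  have e1 : (Fin.cons s r : Fin (m + 1) → FreeGroup (Fin n)) '' {j | j ≠ 0} = range r := by
    ext w
    constructor
    · rintro ⟨j, hj, rfl⟩
      obtain ⟨k, rfl⟩ := Fin.exists_succ_eq.2 hj
      exact ⟨k, rfl⟩
    · rintro ⟨k, rfl⟩
      exact ⟨k.succ, Fin.succ_ne_zero k, rfl⟩
  rw [← hk] at hs
  exact (sup_le_sup_right (normalClosure_mono e1.ge) _) hs

end Vale.Agent.N246S
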