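import Vale.Agent.N246S.Block
import Vale.Agent.N246S.Dom
import Vale.Agent.N246.Family
import Vale.Agent.P246W26.Main

/-! # P246: one sphere suffices, cancellation fails, the gap of the Euler characteristics -/

namespace Vale.Agent.N246S

open Topology Metric Set Vale.Agent.P246 Vale.Agent.P246.T Vale.Agent.P246.Dis
open Vale.Agent.P246.Dis.H821 (BuiltN)

section

variable {X Y : Type} [TopologicalSpace X] [TopologicalSpace Y]

theorem builtN_map (f : C(X, Y)) (hf : Function.Injective f) {c : ℕ → ℕ} {A : Set X}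
    (h : BuiltN c A) : BuiltN c (f '' A) := by
  induction h with
  | base => rw [image_empty]; exact BuiltN.base
  | @cell c A B n Φ _ h ih =>
    refine BuiltN.cell n (f.comp Φ) ih ⟨fun x hx => ⟨_, h.bdry x hx, rfl⟩, ?_,
      fun x y hx hy hxy => h.inj x y hx hy (hf hxy), ?_⟩
    · rintro x hx ⟨y, hy, he⟩
      rw [hf he] at hy
      exact h.int x hx hy
    · rw [h.eq, image_union, ← range_comp]
      rfl

theorem builtN_wedge {c : ℕ → ℕ} (h : BuiltN c (univ : Set X)) (x : X) (s : S2) :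
    BuiltN (Function.update c 2 (c 2 + 1)) (univ : Set (Wedge x s)) := by
  obtain ⟨q, -, hq⟩ := exists_att x s
  have h1 : BuiltN c (Base X s) := by
    rw [base_eq]
    exact builtN_map _ (fun a b h => congrArg Prod.fst h) h
  have h2 := H821.builtN_sub (BuiltN.cell 2 _ h1 hq) subset_rfl
  rwa [Subtype.coe_preimage_self] at h2

/-- `X` is a retract of the wedge -/
theorem retract_wedge (x : X) (s : S2) (h : ContinuousMap.HomotopyEquiv (Wedge x s) Y) :
    ∃ (i : C(X, Y)) (r : C(Y, X)), (r.comp i).Homotopic (ContinuousMap.id X) := by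
  let j : C(X, Wedge x s) := ⟨fun y => ⟨(y, s), Or.inr rfl⟩, by fun_prop⟩
  let q : C(Wedge x s, X) := ⟨fun z => z.1.1, by fun_prop⟩
  refine ⟨h.toFun.comp j, q.comp h.invFun, ?_⟩
  exact ((ContinuousMap.Homotopic.refl q).comp h.left_inv).comp (ContinuousMap.Homotopic.refl j)

end

variable {G : Type} [Group G] {d : ℕ}

/-- the Euler characteristic of a finite two-complex -/
theorem gap (hdef : ∀ Q : FinPresentation G, Q.gens < Q.rels + d) (Y : Type) [TopologicalSpace Y]
    [T2Space Y] [CWComplex (univ : Set Y)] [CWComplex.Finite (univ : Set Y)] [ConnectedSpace Y]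
    (hY : ∀ m > 2, IsEmpty (RelCWComplex.cell (univ : Set Y) m)) (y : Y)
    (e : FundamentalGroup Y y ≃* G) :
    Nat.card (RelCWComplex.cell (univ : Set Y) 1) + 1 <
      Nat.card (RelCWComplex.cell (univ : Set Y) 0) +
        Nat.card (RelCWComplex.cell (univ : Set Y) 2) + d := by
  obtain ⟨E, _, p, hp, hsc⟩ := exists_univ Y
  obtain ⟨Q, h1, h2⟩ := H87.exists_pres_of_cw hY hp y e
  have := hdef Q
  omega

/-- the sphere cannot be cancelled -/
theorem no_cancel (hdef : ∀ Q : FinPresentation G, Q.gens < Q.rels + d) {a b : ℕ}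
    (hd : a + 1 = b + d) (X : Type) [TopologicalSpace X]
    [T2Space X] [CWComplex (univ : Set X)] [CWComplex.Finite (univ : Set X)] [ConnectedSpace X]
    (x : X) (e : FundamentalGroup X x ≃* G) (s : S2) (hM : TwoModel (Wedge x s) a b)
    (Z : Type) [TopologicalSpace Z] [T2Space Z] [CWComplex (univ : Set Z)]
    [CWComplex.Finite (univ : Set Z)]
    (hZ : ∀ m > 2, IsEmpty (RelCWComplex.cell (univ : Set Z) m)) (z : Z) (t : S2) :
    IsEmpty (ContinuousMap.HomotopyEquiv (Wedge z t) (Wedge x s)) := by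
  refine ⟨fun h => ?_⟩
  obtain ⟨Y, _, _, _, hYf, hY, c0, c1, c2, ⟨k⟩⟩ := hM
  obtain ⟨E, _, _, _, p, hp, hsc⟩ := exists_univ' X x e
  obtain ⟨E', _, _, _, p', hp', hsc', -⟩ := wedge_step hp x s
  obtain ⟨F, _, _, _, q, -, hF, hq, -, -⟩ := H140.exists_cover_of_htpyEquiv p' hp' h
  have hpF : PathConnectedSpace F := inferInstance
  have hpZ : PathConnectedSpace Z := by
    refine Function.Surjective.pathConnectedSpace (f := fun y => (q y).1.1) (fun y => ?_)
      (by fun_prop)
    obtain ⟨w, hw⟩ := hq.surjective ⟨(y, t), Or.inr rfl⟩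
    exact ⟨w, by simp only [hw]⟩
  obtain ⟨E1, _, _, _, p1, hp1, hsc1⟩ := exists_univ' Z z (MulEquiv.refl _)
  obtain ⟨E2, _, _, _, p2, hp2, hsc2, -⟩ := wedge_step hp1 z t
  obtain ⟨e1⟩ := H285.pi1_equiv hp2 ⟨(z, t), Or.inr rfl⟩
  obtain ⟨e2⟩ := H285.pi1_equiv hq ⟨(z, t), Or.inr rfl⟩
  have h1 := gap hdef Z hZ z (e1.symm.trans e2)
  have h2 := H821.chi_eq_of_built (Wedge z t) Y (builtN_wedge (H821.builtN_cw Z) z t)
    ⟨h.trans k⟩ (N := 3) fun n hn => by
      rw [Function.update_of_ne (by omega)]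
      have := hZ n (by omega)
      exact Nat.card_of_isEmpty
  rw [H821.chi_dim_two Y hY, c0, c1, c2] at h2
  simp only [Finset.sum_range_succ, Finset.sum_range_zero, Function.update_self,
    Function.update_of_ne (show (0 : ℕ) ≠ 2 by norm_num),
    Function.update_of_ne (show (1 : ℕ) ≠ 2 by norm_num)] at h2
  norm_num at h2
  omega

end Vale.Agent.N246S
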