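import Vale.Agent.N246S.Wedge

/-! # P246: a two-dimensional model from a quasi-isomorphism with a Fox complex -/

namespace Vale.Agent.N246S

open Topology Metric Set Vale.Agent.P246 Vale.Agent.P246.T Vale.Agent.P246.Dis

/-- `Z` is homotopy equivalent to a finite complex with `1`, `a`, `b` cells of dimensions
`0`, `1`, `2` and no other cells. -/
def TwoModel (Z : Type) [TopologicalSpace Z] (a b : ℕ) : Prop :=
  ∃ (Y : Type) (_ : TopologicalSpace Y) (_ : T2Space Y) (_ : CWComplex (univ : Set Y)),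
    CWComplex.Finite (univ : Set Y) ∧
      (∀ m > 2, IsEmpty (RelCWComplex.cell (univ : Set Y) m)) ∧
      Nat.card (RelCWComplex.cell (univ : Set Y) 0) = 1 ∧
      Nat.card (RelCWComplex.cell (univ : Set Y) 1) = a ∧
      Nat.card (RelCWComplex.cell (univ : Set Y) 2) = b ∧
      Nonempty (ContinuousMap.HomotopyEquiv Z Y)

theorem TwoModel.has {Z : Type} [TopologicalSpace Z] {a b : ℕ} (h : TwoModel Z a b) :
    HasFiniteTwoModel Z := by
  obtain ⟨Y, i1, i2, i3, h1, h2, -, -, -, h3⟩ := h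
  exact ⟨Y, i1, i2, i3, h1, h2, h3⟩

variable {G X E : Type} [Group G] [TopologicalSpace X] [TopologicalSpace E] [MulAction G E]
  [ContinuousConstSMul G E] {p : C(E, X)}

theorem model_of_foxQI [T2Space X] [hsc : SimplyConnectedSpace E]
    (hp : IsQuotientCoveringMap p G) (hB : Built ∅ (univ : Set X)) {Pr : FinPresentation G}
    {ψ0 : ZG G →ₗ[ZG G] SC G 0 E} {ψ1 : (Fin Pr.gens → ZG G) →ₗ[ZG G] SC G 1 E}
    {ψ2 : (Fin Pr.rels → ZG G) →ₗ[ZG G] SC G 2 E} (hψ : FoxQI Pr univ ψ0 ψ1 ψ2) :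
    TwoModel X Pr.gens Pr.rels := by
  obtain ⟨e⟩ : Nonempty E := inferInstance
  have hα : ∀ i, Nonempty (Path e (Pr.x i • e)) := fun i => PathConnectedSpace.joined _ _
  let α : ∀ i, Path e (Pr.x i • e) := fun i => (hα i).some
  obtain ⟨W⟩ := WC.main
  obtain ⟨c, hc⟩ := A2.main G E Pr ψ0 ψ1 ψ2 hψ e (α)
  have hc0 := (hc c fun j => ⟨0, by simp⟩).1
  have hδ : ∀ j, ∃ δ : C(Dk 2, E), BdryWord Pr.x α (Pr.r j).toWord δ ∧ ∃ t : Ch 3 E,
      push δ 2 zeta2 + ksx 2 e + W.cor G E Pr.gens Pr.x e α (Pr.r j).toWord = c j + bd 2 t :=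
    fun j => YD.main fund W G E _ Pr.x e α _ (YH.wval_rel Pr j) (c j) (hc0 j)
  choose δ hδ1 hδ2 using hδ
  obtain ⟨y, hy, hye, hya, hyb⟩ := YC.main G X E p hp Pr e α δ hδ1
  obtain ⟨hpW, hscW, ⟨hX⟩, f, hf, hfg, h, hfh, hhf⟩ := EWb.main G X E p hp Pr.gens Pr.rels
  have := hscW hsc
  have hscY := YP.main G (X × WW Pr.gens Pr.rels) (EW G E Pr.gens Pr.rels)
    (pW G Pr.gens Pr.rels p) hpW Pr y hy
  have hQ := YH.main MS.main CL.main fund W G (X × WW Pr.gens Pr.rels) (EW G E Pr.gens Pr.rels)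
    (pW G Pr.gens Pr.rels p) hpW Pr y hy
  have hQE := (hc (fun j => push f 2 (y.zface W j)) (fun j => by
    obtain ⟨t, ht⟩ := hδ2 j
    refine ⟨t, ?_⟩
    rw [← ht, PresCx.zface, map_add, map_add]
    congr 1
    · congr 1
      · rw [← push_comp]
        congr 1
        congr 1
        ext z
        rw [ContinuousMap.comp_apply, hf, hyb]
      · rw [ksx, push_single, ksx]
        congr 1
        ext z
        simp [hf, hye]
    · refine W.nat G _ E f hfg _ _ _ _ _ _ ?_ ?_ _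
      · rw [hf, hye]
      · intro i t
        rw [hf, hya])).2
  have hHZ : ∀ k, HZero univ (pW G Pr.gens Pr.rels p ⁻¹' y.Y) k := by
    refine RV.main G E (EW G E Pr.gens Pr.rels) f hfg ⟨h, hfh, hhf⟩ Pr _ _ _ _ _ _ _ hQ hQE
      ?_ ?_ ?_
    · intro v
      rw [phi0, phi0, LinearMap.toSpanSingleton_apply, LinearMap.toSpanSingleton_apply,
        SC.un_smul, SC.un_smul, SC.un_mk, SC.un_mk, Finsupp.sum, Finsupp.sum, map_sum]
      refine Finset.sum_congr rfl fun g _ => ?_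
      rw [map_smul, ksx, ksx, push_single, push_single, push_single]
      congr 2
      ext z
      simp only [ContinuousMap.comp_apply, ContinuousMap.const_apply]
      change g • e = f (g • y.e)
      rw [hfg, hf, hye]
    · intro v
      rw [phi1, phi1, push_lmap f hfg]
      congr 3
      funext i
      rw [SC.un_mk, psx, psx, push_single]
      congr 2
      ext z
      simp only [ContinuousMap.comp_apply]
      change α i _ = f (y.a i _)
      rw [hf, hya]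
    · intro v
      rw [push_lmap f hfg]
      rfl
  have hL := relHur (EW G E Pr.gens Pr.rels) (pW G Pr.gens Pr.rels p ⁻¹' y.Y) hHZ
  have hL2 : ∀ n, Lft y.Y n := fun n =>
    CV.main _ _ n (DN.main G _ _ (pW G Pr.gens Pr.rels p) hpW y.Y n (hL n))
  have hs : ∀ (g : G) z, pW G Pr.gens Pr.rels p (g • z) = pW G Pr.gens Pr.rels p z :=
    fun g _ => hpW.map_smul g
  refine ⟨y.Y, inferInstance, inferInstance, CY.cw hs y hy, CY.cw_finite hs y hy,
    fun m hm => CY.empty_cel m hm, Nat.card_unique (α := Unit), Nat.card_fin Pr.gens,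
    Nat.card_fin Pr.rels, ?_⟩
  exact WH.main X (X × WW Pr.gens Pr.rels) y.Y hB (CY.built2 y hy _ le_rfl) hL2 ⟨hX⟩

/-- A model of the chains which consists of the Fox complex and one generator in degree three,
whose boundary is `β`. -/
structure Res3 (Pr : FinPresentation G) (β : Fin Pr.rels → ZG G) (E : Type) [TopologicalSpace E]
    [MulAction G E] [ContinuousConstSMul G E] where
  P : ∀ n, Submodule (ZG G) (SC G n E)
  φ0 : ZG G →ₗ[ZG G] SC G 0 E
  φ1 : (Fin Pr.gens → ZG G) →ₗ[ZG G] SC G 1 E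
  φ2 : (Fin Pr.rels → ZG G) →ₗ[ZG G] SC G 2 E
  z : SC G 3 E
  model : IsModel (fun n => SC G n E) (fun n => SC.d G n E) (fun _ => ⊤) P
  r0 : P 0 = LinearMap.range φ0
  r1 : P 1 = LinearMap.range φ1
  r2 : P 2 = LinearMap.range φ2
  r3 : P 3 = Submodule.span (ZG G) {z}
  r4 : ∀ n, P (n + 4) = ⊥
  j0 : Function.Injective φ0
  j1 : Function.Injective φ1
  j2 : Function.Injective φ2
  c1 : ∀ v, SC.d G 0 E (φ1 v) = φ0 (fox1 Pr v)
  c2 : ∀ v, SC.d G 1 E (φ2 v) = φ1 (fox2 Pr v)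
  c3 : SC.d G 2 E z = φ2 β

theorem foxQI_of {Pr : FinPresentation G} {β : Fin Pr.rels → ZG G}
    (lam : (Fin Pr.rels → ZG G) →ₗ[ZG G] ZG G) (hβ : fox2 Pr β = 0) (hlam : lam β = 1)
    {Q : ∀ n, Submodule (ZG G) (SC G n E)}
    (hM : IsModel (fun n => SC G n E) (fun n => SC.d G n E) (fun _ => ⊤) Q)
    {φ0 : ZG G →ₗ[ZG G] SC G 0 E} {φ1 : (Fin Pr.gens → ZG G) →ₗ[ZG G] SC G 1 E}
    {φ2 : (Fin Pr.rels → ZG G) →ₗ[ZG G] SC G 2 E} {z : SC G 3 E} {σ : SC G 2 E}
    (r0 : ∀ x ∈ Q 0, ∃ v, φ0 v = x) (r0' : ∀ v, φ0 v ∈ Q 0)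
    (r1 : ∀ x ∈ Q 1, ∃ v, φ1 v = x) (r1' : ∀ v, φ1 v ∈ Q 1)
    (r2 : ∀ x ∈ Q 2, ∃ v, ∃ r : ZG G, φ2 v + r • σ = x)
    (r2' : ∀ v (r : ZG G), φ2 v + r • σ ∈ Q 2)
    (r3 : ∀ x ∈ Q 3, ∃ r : ZG G, r • z = x) (r4 : ∀ n, ∀ x ∈ Q (n + 4), x = 0)
    (j0 : Function.Injective φ0) (j1 : Function.Injective φ1) (j2 : Function.Injective φ2)
    (jσ : ∀ (r : ZG G) v, r • σ = φ2 v → r = 0)
    (c1 : ∀ v, SC.d G 0 E (φ1 v) = φ0 (fox1 Pr v))
    (c2 : ∀ v, SC.d G 1 E (φ2 v) = φ1 (fox2 Pr v)) (c3 : SC.d G 2 E z = φ2 β)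
    (cσ : SC.d G 1 E σ = 0) : ∃ ψ2, FoxQI Pr univ φ0 φ1 ψ2 := by
  let ψ2 : (Fin Pr.rels → ZG G) →ₗ[ZG G] SC G 2 E :=
    φ2.comp (LinearMap.id - (LinearMap.toSpanSingleton _ _ β).comp lam) +
      (LinearMap.toSpanSingleton _ _ σ).comp lam
  have hψ : ∀ v, ψ2 v = φ2 (v - lam v • β) + lam v • σ := fun _ => rfl
  have hu : ∀ (k : ℕ) (y : Ch k E), y ∈ Con (univ : Set E) k := fun k y => PR.Con_univ y
  have hd : ∀ v (r : ZG G), SC.d G 1 E (φ2 v + r • σ) = φ1 (fox2 Pr v) := fun v r => by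
    rw [map_add, map_smul, cσ, smul_zero, add_zero, c2]
  have c2' : ∀ v, SC.d G 1 E (ψ2 v) = φ1 (fox2 Pr v) := fun v => by
    rw [hψ, hd, map_sub, map_smul, hβ, smul_zero, sub_zero]
  have hβ0 : ∀ r : ZG G, lam (r • β) = r := fun r => by
    rw [map_smul, hlam, smul_eq_mul, mul_one]
  refine ⟨ψ2, c1, c2', fun _ => hu _ _, fun _ => hu _ _, fun _ => hu _ _, ?_, ?_, ?_, ?_, ?_, ?_,
    ?_⟩
  · intro x _
    obtain ⟨y, hy, -, w, -, h⟩ := hM.surj 0 (SC.mk G x) trivial trivial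
    obtain ⟨v, rfl⟩ := r0 y hy
    exact ⟨v, w.un, hu _ _, congrArg SC.un h⟩
  · rintro v ⟨y, -, h⟩
    obtain ⟨w, hw, h1⟩ := hM.inj 0 (φ0 v) (r0' v) trivial ⟨SC.mk G y, trivial, SC.un_inj h.symm⟩
    obtain ⟨u, rfl⟩ := r1 w hw
    exact ⟨u, j0 (by rw [← h1, c1])⟩
  · intro x _ hx
    obtain ⟨y, hy, hyc, w, -, h⟩ := hM.surj 1 (SC.mk G x) trivial (SC.un_inj hx)
    obtain ⟨v, rfl⟩ := r1 y hy
    refine ⟨v, j0 ?_, w.un, hu _ _, congrArg SC.un h⟩
    rw [← c1, map_zero]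
    exact hyc
  · rintro v hv ⟨y, -, h⟩
    obtain ⟨w, hw, h1⟩ := hM.inj 1 (φ1 v) (r1' v) (by
      change SC.d G 0 E (φ1 v) = 0
      rw [c1, hv, map_zero]) ⟨SC.mk G y, trivial, SC.un_inj h.symm⟩
    obtain ⟨u, r, rfl⟩ := r2 w hw
    exact ⟨u, j1 (by rw [← h1, hd])⟩
  · intro x _ hx
    obtain ⟨y, hy, hyc, w, -, h⟩ := hM.surj 2 (SC.mk G x) trivial (SC.un_inj hx)
    obtain ⟨u, r, rfl⟩ := r2 y hy
    have hu0 : fox2 Pr u = 0 := j1 (by
      rw [← hd u r, map_zero]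
      exact hyc)
    have hl : lam (u - lam u • β + r • β) = r := by
      rw [map_add, map_sub, hβ0, hβ0, sub_self, zero_add]
    refine ⟨u - lam u • β + r • β, by
      rw [map_add, map_sub, map_smul, map_smul, hβ, hu0, smul_zero, smul_zero, sub_zero, add_zero],
      (lam u • z + w).un, hu _ _, congrArg SC.un (h.trans ?_ :
        SC.mk G x = ψ2 (u - lam u • β + r • β) + SC.d G 2 E (lam u • z + w))⟩
    rw [hψ, hl, add_sub_cancel_right, map_add (SC.d G 2 E), map_smul (SC.d G 2 E), c3, map_sub,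
      map_smul]
    abel
  · rintro v hv ⟨y, -, h⟩
    obtain ⟨w, hw, h1⟩ := hM.inj 2 (ψ2 v) (r2' _ _) (by
      change SC.d G 1 E (ψ2 v) = 0
      rw [c2', hv, map_zero]) ⟨SC.mk G y, trivial, SC.un_inj h.symm⟩
    obtain ⟨r, rfl⟩ := r3 w hw
    rw [map_smul, c3, hψ, ← map_smul] at h1
    have h2 : lam v = 0 := jσ _ (r • β - (v - lam v • β)) (by
      rw [map_sub φ2 (r • β), h1, add_sub_cancel_left])
    rw [h2, zero_smul, zero_smul, add_zero, sub_zero] at h1
    have h3 := j2 h1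
    have h4 : r = 0 := by rw [← hβ0 r, h3, h2]
    rw [← h3, h4, zero_smul]
  · intro n x _ hx
    obtain ⟨y, hy, hyc, w, -, h⟩ := hM.surj (n + 3) (SC.mk G x) trivial (SC.un_inj hx)
    have hy0 : y = 0 := by
      cases n with
      | zero =>
        obtain ⟨r, rfl⟩ := r3 y hy
        have h1 : SC.d G 2 E (r • z) = 0 := hyc
        rw [map_smul, c3, ← map_smul, map_eq_zero_iff _ j2] at h1
        have h4 : r = 0 := by rw [← hβ0 r, h1, map_zero]
        rw [h4, zero_smul]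
      | succ n => exact r4 n y hy
    rw [hy0, zero_add] at h
    exact ⟨w.un, hu _ _, congrArg SC.un h⟩

/-- The wedge with one sphere has a two-dimensional model. -/
theorem wedge_model [T2Space X] [SimplyConnectedSpace E] (hp : IsQuotientCoveringMap p G)
    (hB : Built ∅ (univ : Set X)) {Pr : FinPresentation G} {β : Fin Pr.rels → ZG G}
    (lam : (Fin Pr.rels → ZG G) →ₗ[ZG G] ZG G) (hβ : fox2 Pr β = 0) (hlam : lam β = 1)
    (D : Res3 Pr β E) (x : X) (s : S2) : TwoModel (Wedge x s) Pr.gens Pr.rels := by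
  obtain ⟨E', _, _, _, p', hp', hsc, i, σ, hi, hd, hσ, h⟩ := wedge_step hp x s
  obtain ⟨h1, hM⟩ := h D.P D.model
  obtain ⟨ψ2, hψ⟩ := foxQI_of lam hβ hlam hM (φ0 := (i 0).comp D.φ0) (φ1 := (i 1).comp D.φ1)
    (φ2 := (i 2).comp D.φ2) (z := i 3 D.z) (σ := σ)
    (fun y hy => by
      rw [Function.update_of_ne (by norm_num), D.r0, ← LinearMap.range_comp] at hy
      exact hy)
    (fun v => by
      rw [Function.update_of_ne (by norm_num), D.r0, ← LinearMap.range_comp]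
      exact ⟨v, rfl⟩)
    (fun y hy => by
      rw [Function.update_of_ne (by norm_num), D.r1, ← LinearMap.range_comp] at hy
      exact hy)
    (fun v => by
      rw [Function.update_of_ne (by norm_num), D.r1, ← LinearMap.range_comp]
      exact ⟨v, rfl⟩)
    (fun y hy => by
      rw [Function.update_self, D.r2, ← LinearMap.range_comp] at hy
      obtain ⟨_, ⟨v, rfl⟩, b, hb, rfl⟩ := Submodule.mem_sup.1 hy
      obtain ⟨r, rfl⟩ := Submodule.mem_span_singleton.1 hb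
      exact ⟨v, r, rfl⟩)
    (fun v r => by
      rw [Function.update_self, D.r2, ← LinearMap.range_comp]
      exact Submodule.add_mem_sup ⟨v, rfl⟩
        (Submodule.smul_mem _ _ (Submodule.mem_span_singleton_self σ)))
    (fun y hy => by
      rw [Function.update_of_ne (by norm_num), D.r3, Submodule.map_span, image_singleton] at hy
      exact Submodule.mem_span_singleton.1 hy)
    (fun n y hy => by
      rw [Function.update_of_ne (by omega), D.r4, Submodule.map_bot] at hy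
      exact hy)
    ((hi 0).comp D.j0) ((hi 1).comp D.j1) ((hi 2).comp D.j2) (fun r v => h1 r _)
    (fun v => by rw [LinearMap.comp_apply, hd, D.c1, LinearMap.comp_apply])
    (fun v => by rw [LinearMap.comp_apply, hd, D.c2, LinearMap.comp_apply])
    (by rw [hd, D.c3, LinearMap.comp_apply]) hσ
  exact model_of_foxQI hp' (built_wedge hB x s) hψ

end Vale.Agent.N246S
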