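import Vale.Agent.N246S.Defs
import Vale.Agent.P246.T.Spec
import Mathlib.Analysis.InnerProductSpace.Projection.Reflection

/-! # P246: the sphere as a quotient of the square -/

namespace Vale.Agent.N246S

open Metric Set Vale.Agent.P246.T

/-- the denominator -/
noncomputable def den (z : Fin 2 → ℝ) : ℝ := z 0 ^ 2 + z 1 ^ 2 + (1 - ‖z‖) ^ 2

theorem den_pos (z : Fin 2 → ℝ) : 0 < den z := by
  by_contra h
  have h1 := not_lt.1 h
  unfold den at h1
  have a0 : z 0 = 0 := by nlinarith [sq_nonneg (z 0), sq_nonneg (z 1), sq_nonneg (1 - ‖z‖)]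
  have a1 : z 1 = 0 := by nlinarith [sq_nonneg (z 0), sq_nonneg (z 1), sq_nonneg (1 - ‖z‖)]
  have hz : z = 0 := by
    funext i
    fin_cases i
    · exact a0
    · exact a1
  rw [hz] at h1
  norm_num at h1

theorem continuous_den : Continuous den := by unfold den; fun_prop

/-- the collapse map, in coordinates -/
noncomputable def col (z : Fin 2 → ℝ) : EuclideanSpace ℝ (Fin 3) :=
  !₂[2 * (1 - ‖z‖) * z 0 / den z, 2 * (1 - ‖z‖) * z 1 / den z,
    (z 0 ^ 2 + z 1 ^ 2 - (1 - ‖z‖) ^ 2) / den z]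

theorem col0 (z : Fin 2 → ℝ) : col z 0 = 2 * (1 - ‖z‖) * z 0 / den z := rfl
theorem col1 (z : Fin 2 → ℝ) : col z 1 = 2 * (1 - ‖z‖) * z 1 / den z := rfl
theorem col2 (z : Fin 2 → ℝ) : col z 2 = (z 0 ^ 2 + z 1 ^ 2 - (1 - ‖z‖) ^ 2) / den z := rfl

theorem mem_S2 {y : EuclideanSpace ℝ (Fin 3)} :
    y ∈ sphere (0 : EuclideanSpace ℝ (Fin 3)) 1 ↔ y 0 ^ 2 + y 1 ^ 2 + y 2 ^ 2 = 1 := by
  rw [mem_sphere_zero_iff_norm, EuclideanSpace.norm_eq, Real.sqrt_eq_one, Fin.sum_univ_three]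
  simp only [Real.norm_eq_abs, sq_abs]

theorem col_mem (z : Fin 2 → ℝ) : col z ∈ sphere (0 : EuclideanSpace ℝ (Fin 3)) 1 := by
  have h := (den_pos z).ne'
  rw [mem_S2, col0, col1, col2]
  field_simp
  unfold den
  ring

theorem continuous_col : Continuous col := by
  unfold col
  refine (PiLp.continuous_toLp 2 _).comp (continuous_pi fun i => ?_)
  have h := continuous_den
  fin_cases i
  · exact Continuous.div (by fun_prop) h fun z => (den_pos z).ne'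
  · exact Continuous.div (by fun_prop) h fun z => (den_pos z).ne'
  · exact Continuous.div (by fun_prop) h fun z => (den_pos z).ne'

theorem e3_ext {y y' : EuclideanSpace ℝ (Fin 3)} (h0 : y 0 = y' 0) (h1 : y 1 = y' 1)
    (h2 : y 2 = y' 2) : y = y' := by
  ext i
  fin_cases i
  · exact h0
  · exact h1
  · exact h2

/-- the north pole -/
noncomputable def north : EuclideanSpace ℝ (Fin 3) := !₂[0, 0, 1]

theorem col_bdry {z : Fin 2 → ℝ} (hz : ‖z‖ = 1) : col z = north := by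
  have h := (den_pos z).ne'
  refine e3_ext ?_ ?_ ?_
  · rw [col0, hz]; simp [north]
  · rw [col1, hz]; simp [north]
  · rw [col2]
    change _ = (1 : ℝ)
    rw [div_eq_one_iff_eq h, den, hz]
    ring

theorem one_sub_col2 (z : Fin 2 → ℝ) : 1 - col z 2 = 2 * (1 - ‖z‖) ^ 2 / den z := by
  have h := (den_pos z).ne'
  rw [col2]
  field_simp
  unfold den
  ring

theorem col_int {z : Fin 2 → ℝ} (hz : ‖z‖ < 1) : 0 < 1 - col z 2 := by
  rw [one_sub_col2]
  have h := den_pos z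
  have h1 : 0 < 1 - ‖z‖ := by linarith
  positivity

theorem col_div {z : Fin 2 → ℝ} (hz : ‖z‖ < 1) :
    (1 - ‖z‖)⁻¹ • z = ![col z 0 / (1 - col z 2), col z 1 / (1 - col z 2)] := by
  have h := (den_pos z).ne'
  have h1 : 1 - ‖z‖ ≠ 0 := by linarith
  funext i
  fin_cases i
  · change (1 - ‖z‖)⁻¹ * z 0 = col z 0 / (1 - col z 2)
    rw [one_sub_col2, col0]
    field_simp
  · change (1 - ‖z‖)⁻¹ * z 1 = col z 1 / (1 - col z 2)
    rw [one_sub_col2, col1]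
    field_simp

theorem col_inj {z z' : Fin 2 → ℝ} (hz : ‖z‖ < 1) (hz' : ‖z'‖ < 1) (h : col z = col z') :
    z = z' := by
  have h1 : (1 - ‖z‖)⁻¹ • z = (1 - ‖z'‖)⁻¹ • z' := by rw [col_div hz, col_div hz', h]
  have a : 0 < 1 - ‖z‖ := by linarith
  have a' : 0 < 1 - ‖z'‖ := by linarith
  have h2 := congrArg norm h1
  rw [norm_smul, norm_smul, Real.norm_of_nonneg (inv_pos.2 a).le,
    Real.norm_of_nonneg (inv_pos.2 a').le] at h2
  have h3 : ‖z‖ = ‖z'‖ := by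
    field_simp at h2
    linarith
  rw [h3] at h1
  exact smul_right_injective _ (inv_pos.2 a').ne' h1

theorem col_surj {y : EuclideanSpace ℝ (Fin 3)}
    (hy : y ∈ sphere (0 : EuclideanSpace ℝ (Fin 3)) 1) : ∃ z : Fin 2 → ℝ, ‖z‖ ≤ 1 ∧ col z = y := by
  rw [mem_S2] at hy
  by_cases hc : y 2 = 1
  · refine ⟨fun _ => 1, by simp, ?_⟩
    rw [col_bdry (by simp)]
    rw [hc] at hy
    refine e3_ext ?_ ?_ hc.symm
    · change 0 = y 0
      nlinarith [sq_nonneg (y 0), sq_nonneg (y 1)]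
    · change 0 = y 1
      nlinarith [sq_nonneg (y 0), sq_nonneg (y 1)]
  · have hc1 : 1 - y 2 ≠ 0 := fun h => hc (by linarith)
    obtain ⟨w, hw0, hw1⟩ : ∃ w : Fin 2 → ℝ, w 0 = y 0 / (1 - y 2) ∧ w 1 = y 1 / (1 - y 2) :=
      ⟨![y 0 / (1 - y 2), y 1 / (1 - y 2)], rfl, rfl⟩
    have hρ : 0 < 1 + ‖w‖ := by positivity
    have hn : ‖(1 + ‖w‖)⁻¹ • w‖ = ‖w‖ / (1 + ‖w‖) := by
      rw [norm_smul, Real.norm_of_nonneg (inv_pos.2 hρ).le, div_eq_inv_mul]
    have hn1 : 1 - ‖(1 + ‖w‖)⁻¹ • w‖ = (1 + ‖w‖)⁻¹ := by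
      rw [hn]
      field_simp
      ring
    have hw : w 0 ^ 2 + w 1 ^ 2 + 1 = 2 / (1 - y 2) := by
      rw [hw0, hw1]
      field_simp
      nlinarith
    have hd : den ((1 + ‖w‖)⁻¹ • w) = (1 + ‖w‖)⁻¹ ^ 2 * (2 / (1 - y 2)) := by
      rw [den, hn1, ← hw]
      simp only [Pi.smul_apply, smul_eq_mul]
      ring
    refine ⟨(1 + ‖w‖)⁻¹ • w, ?_, e3_ext ?_ ?_ ?_⟩
    · rw [hn, div_le_one hρ]
      linarith
    · rw [col0, hd, hn1, Pi.smul_apply, smul_eq_mul, hw0]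
      field_simp
    · rw [col1, hd, hn1, Pi.smul_apply, smul_eq_mul, hw1]
      field_simp
    · rw [col2, hd, hn1]
      simp only [Pi.smul_apply, smul_eq_mul]
      have h5 : w 0 ^ 2 + w 1 ^ 2 = 2 / (1 - y 2) - 1 := by linarith
      have h6 : ((1 + ‖w‖)⁻¹ * w 0) ^ 2 + ((1 + ‖w‖)⁻¹ * w 1) ^ 2 - (1 + ‖w‖)⁻¹ ^ 2 =
          (1 + ‖w‖)⁻¹ ^ 2 * (w 0 ^ 2 + w 1 ^ 2 - 1) := by ring
      rw [h6, h5]
      field_simp
      ring

/-- The square modulo its boundary is the sphere, with a given base point. -/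
theorem exists_collapse (s : S2) : ∃ q : C(Dk 2, S2),
    (∀ z : Dk 2, ‖(z : Fin 2 → ℝ)‖ = 1 → q z = s) ∧
    (∀ z : Dk 2, ‖(z : Fin 2 → ℝ)‖ < 1 → q z ≠ s) ∧
    (∀ z z' : Dk 2, ‖(z : Fin 2 → ℝ)‖ < 1 → ‖(z' : Fin 2 → ℝ)‖ < 1 → q z = q z' → z = z') ∧
    ∀ y, ∃ z, q z = y := by
  have hN : ‖north‖ = ‖(s : EuclideanSpace ℝ (Fin 3))‖ := by
    have h1 : north ∈ sphere (0 : EuclideanSpace ℝ (Fin 3)) 1 := by
      rw [mem_S2]
      simp [north]
    rw [mem_sphere_zero_iff_norm.1 h1, mem_sphere_zero_iff_norm.1 s.2]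
  obtain ⟨R, hR⟩ : ∃ R : EuclideanSpace ℝ (Fin 3) ≃ₗᵢ[ℝ] EuclideanSpace ℝ (Fin 3), R north = s :=
    ⟨_, Submodule.reflection_sub hN⟩
  have hm : ∀ z, R (col z) ∈ sphere (0 : EuclideanSpace ℝ (Fin 3)) 1 := fun z => by
    rw [mem_sphere_zero_iff_norm, R.norm_map, mem_sphere_zero_iff_norm.1 (col_mem z)]
  refine ⟨⟨fun z => ⟨R (col z), hm z⟩, Continuous.subtype_mk
    (R.continuous.comp (continuous_col.comp continuous_subtype_val)) _⟩, fun z hz => ?_,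
    fun z hz h => ?_, fun z z' hz hz' h => ?_, fun y => ?_⟩
  · apply Subtype.ext
    change R (col z) = s
    rw [col_bdry hz, hR]
  · have h1 : R (col z) = R north := (congrArg Subtype.val h).trans hR.symm
    have h2 := col_int hz
    rw [R.injective h1] at h2
    exact lt_irrefl (0 : ℝ) (h2.trans_eq (sub_self (1 : ℝ)))
  · exact Subtype.ext (col_inj hz hz' (R.injective (congrArg Subtype.val h)))
  · obtain ⟨z, hz, h⟩ := col_surj (y := R.symm y) (by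
      rw [mem_sphere_zero_iff_norm, R.symm.norm_map, mem_sphere_zero_iff_norm.1 y.2])
    refine ⟨⟨z, mem_closedBall_zero_iff.2 hz⟩, Subtype.ext ?_⟩
    change R (col z) = y
    rw [h, LinearIsometryEquiv.apply_symm_apply]

end Vale.Agent.N246S
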