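import Vale.Agent.P223.X.U1
import Mathlib.Analysis.Normed.Module.Convex
import Mathlib.Analysis.Convex.Contractible
import Mathlib.Topology.Homotopy.Contractible
import Mathlib.Topology.LocallyConstant.Basic
import Mathlib.Topology.Connected.LocallyPathConnected
import Mathlib.AlgebraicTopology.FundamentalGroupoid.InducedMaps

/-! # The universal covering of a semilocally simply connected space -/

namespace Vale.Agent.N246S.Uni

open Topology Metric Vale.Agent.P223.X.U

/-- open path connected neighbourhoods in which paths are determined by their end points, up to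
homotopy in `M` -/
structure Atl (M : Type) [TopologicalSpace M] where
  U : M → Set M
  op : ∀ i, IsOpen (U i)
  mem : ∀ i, i ∈ U i
  pc : ∀ i, IsPathConnected (U i)
  sc : ∀ i {y z : M} (γ γ' : Path y z), (∀ t, γ t ∈ U i) → (∀ t, γ' t ∈ U i) → γ.Homotopic γ'

variable {M : Type} [TopologicalSpace M] (A : Atl M) [PathConnectedSpace M] (x₀ : M)

open Classical in
/-- the chart transport -/
noncomputable def ct (i y z : M) : Pi1 x₀ :=
  if h : JoinedIn (A.U i) y z then pc x₀ (Path.Homotopic.Quotient.mk h.somePath) else 1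

theorem ct_path (i : M) {y z : M} (γ : Path y z) (h : ∀ t, γ t ∈ A.U i) :
    pc x₀ (Path.Homotopic.Quotient.mk γ) = ct A x₀ i y z := by
  have h1 : JoinedIn (A.U i) y z := ⟨γ, h⟩
  rw [ct, dif_pos h1]
  congr 1
  exact Path.Homotopic.Quotient.eq.2 (A.sc i _ _ h h1.somePath_mem)

theorem ct_trans {i y z w : M} (hy : y ∈ A.U i) (hz : z ∈ A.U i) (hw : w ∈ A.U i) :
    ct A x₀ i y z * ct A x₀ i z w = ct A x₀ i y w := by
  obtain ⟨γ, hγ⟩ := (A.pc i).joinedIn y hy z hz
  obtain ⟨δ, hδ⟩ := (A.pc i).joinedIn z hz w hw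
  rw [← ct_path A x₀ i γ hγ, ← ct_path A x₀ i δ hδ, ← pc_trans,
    ← Path.Homotopic.Quotient.mk_trans]
  refine ct_path A x₀ i _ fun t => ?_
  have h : (γ.trans δ) t ∈ Set.range γ ∪ Set.range δ := by
    rw [← Path.trans_range]
    exact ⟨t, rfl⟩
  rcases h with ⟨s, hs⟩ | ⟨s, hs⟩
  · rw [← hs]; exact hγ s
  · rw [← hs]; exact hδ s

theorem ct_self {i y : M} (hy : y ∈ A.U i) : ct A x₀ i y y = 1 := by
  rw [← ct_path A x₀ i (Path.refl y) fun _ => hy, Path.Homotopic.Quotient.mk_refl, pc_refl]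

theorem tp_chart {S : Type} [TopologicalSpace S] [SimplyConnectedSpace S] (s : C(S, M)) (i : M)
    (hs : ∀ a, s a ∈ A.U i) (a b : S) : tp x₀ s a b = ct A x₀ i (s a) (s b) := by
  rw [tp, ← Path.Homotopic.Quotient.mk_map]
  exact ct_path A x₀ i _ fun t => hs _

/-- the transition functions -/
noncomputable def tau (i j x : M) : Pi1 x₀ := ct A x₀ i i x * ct A x₀ j x j

theorem tau_self {i x : M} (h : x ∈ A.U i) : tau A x₀ i i x = 1 := by
  rw [tau, ct_trans A x₀ (A.mem i) h (A.mem i), ct_self A x₀ (A.mem i)]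

theorem tau_comp (i : M) {j : M} (k : M) {x : M} (h : x ∈ A.U j) :
    tau A x₀ i j x * tau A x₀ j k x = tau A x₀ i k x := by
  unfold tau
  rw [mul_assoc, ← mul_assoc (ct A x₀ j x j), ct_trans A x₀ h (A.mem j) h, ct_self A x₀ h,
    one_mul]

variable [LocallyPathConnectedSpace M]

theorem tau_loc (i j x : M) (hi : x ∈ A.U i) (hj : x ∈ A.U j) :
    ∀ᶠ x' in 𝓝 x, tau A x₀ i j x' = tau A x₀ i j x := by
  have ho : IsOpen (A.U i ∩ A.U j) := (A.op i).inter (A.op j)
  filter_upwards [(ho.pathComponentIn x).mem_nhds (mem_pathComponentIn_self ⟨hi, hj⟩)] with x' hx'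
  obtain ⟨γ, hγ⟩ := hx'
  have hx : x' ∈ A.U i ∩ A.U j := γ.target ▸ hγ 1
  have h3 : ct A x₀ i x x' = ct A x₀ j x x' :=
    (ct_path A x₀ i γ fun t => (hγ t).1).symm.trans (ct_path A x₀ j γ fun t => (hγ t).2)
  unfold tau
  rw [← ct_trans A x₀ (A.mem i) hi hx.1, h3, mul_assoc, ct_trans A x₀ hj hx.2 (A.mem j)]

/-- the bundle -/
noncomputable def core : FiberBundleCore M M (Pi1 x₀) where
  baseSet i := A.U i
  isOpen_baseSet i := A.op i
  indexAt x := x
  mem_baseSet_at x := A.mem x
  coordChange i j x g := g * tau A x₀ i j x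
  coordChange_self i x h v := by
    show v * tau A x₀ i i x = v
    rw [tau_self A x₀ h, mul_one]
  continuousOn_coordChange i j := by
    rintro ⟨x, g⟩ ⟨⟨hi, hj⟩, _⟩
    refine ContinuousAt.continuousWithinAt ?_
    have h1 : ∀ᶠ p : M × Pi1 x₀ in 𝓝 (x, g), tau A x₀ i j p.1 = tau A x₀ i j x :=
      (continuous_fst.tendsto (x, g)).eventually (tau_loc A x₀ i j x hi hj)
    have h2 : ContinuousAt (fun p : M × Pi1 x₀ => p.2 * tau A x₀ i j x) (x, g) :=
      (continuous_of_discreteTopology (f := fun q : Pi1 x₀ => q * tau A x₀ i j x)).continuousAt.comp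
        continuous_snd.continuousAt
    refine h2.congr ?_
    filter_upwards [h1] with p hp
    rw [hp]
  coordChange_comp i j k x h v := by
    show v * tau A x₀ i j x * tau A x₀ j k x = v * tau A x₀ i k x
    rw [mul_assoc, tau_comp A x₀ i k h.1.2]

/-- the universal covering -/
abbrev UX : Type := (core A x₀).TotalSpace

variable {A x₀}

/-- the group element of a point -/
def fib (e : UX A x₀) : Pi1 x₀ := e.2

/-- the coordinate in the chart `i` -/
noncomputable def crd (i : M) (e : UX A x₀) : Pi1 x₀ := fib e * tau A x₀ e.1 i e.1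

theorem crd_cl {i : M} {e : UX A x₀} (h : e.1 ∈ A.U i) : crd i e * ct A x₀ i i e.1 = fib e := by
  unfold crd tau
  rw [ct_self A x₀ (A.mem _), one_mul, mul_assoc, ct_trans A x₀ h (A.mem i) h, ct_self A x₀ h,
    mul_one]

theorem ext_cl {e e' : UX A x₀} (h : e.1 = e'.1) (h' : fib e = fib e') : e = e' := by
  obtain ⟨x, v⟩ := e
  obtain ⟨x', v'⟩ := e'
  obtain rfl : x = x' := h
  have h3 : v = v' := h'
  rw [h3]

variable (A x₀) in
/-- the projection -/
noncomputable def pr : C(UX A x₀, M) := ⟨(core A x₀).proj, (core A x₀).continuous_proj⟩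

theorem pr_cov : IsCoveringMap (pr A x₀) :=
  FiberBundle.isCoveringMap (F := Pi1 x₀) (E := (core A x₀).Fiber)

theorem crd_cont (j : M) (e : UX A x₀) (h : e.1 ∈ A.U j) :
    ContinuousAt (crd (A := A) (x₀ := x₀) j) e := by
  have h1 : ContinuousAt ((core A x₀).localTriv j) e :=
    ((core A x₀).localTriv j).toOpenPartialHomeomorph.continuousAt h
  exact continuous_snd.continuousAt.comp h1

theorem contr : ContractibleSpace unitInterval :=
  (convex_Icc (0 : ℝ) 1).contractibleSpace ⟨0, by simp⟩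

attribute [local instance] contr

omit [LocallyPathConnectedSpace M] in
theorem pc_cast {x y x' y' : M} (p : Path.Homotopic.Quotient x y) (hx : x' = x) (hy : y' = y) :
    pc x₀ (p.cast hx hy) = pc x₀ p := by
  subst hx hy
  rw [Path.Homotopic.Quotient.cast_rfl_rfl]

theorem cl_path (γ : C(unitInterval, UX A x₀)) :
    fib (γ 0) * tp x₀ ((pr A x₀).comp γ) 0 1 = fib (γ 1) := by
  set f : C(unitInterval, M) := (pr A x₀).comp γ with hf
  have key : ∀ t : unitInterval, ∀ᶠ t' in 𝓝 t,
      fib (γ t') * tp x₀ f t' 0 = fib (γ t) * tp x₀ f t 0 := by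
    intro t
    set j := (γ t).1 with hj
    have hm : (γ t).1 ∈ A.U j := A.mem _
    have h1 : ∀ᶠ t' in 𝓝 t, crd j (γ t') = crd j (γ t) := by
      have hc : ContinuousAt (fun t' => crd j (γ t')) t :=
        (crd_cont j (γ t) hm).comp γ.continuous.continuousAt
      exact hc.eventually (p := fun y => y = crd j (γ t))
        (by rw [nhds_discrete]; exact Filter.eventually_pure.2 rfl)
    have ho : IsOpen (f ⁻¹' A.U j) := (A.op j).preimage f.continuous
    obtain ⟨r, hr, hb⟩ := Metric.isOpen_iff.1 ho t hm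
    let S : Set ℝ := Set.Icc 0 1 ∩ ball (t : ℝ) r
    have : ContractibleSpace S :=
      ((convex_Icc (0 : ℝ) 1).inter (convex_ball (t : ℝ) r)).contractibleSpace
        ⟨(t : ℝ), t.2, mem_ball_self hr⟩
    let g : C(S, unitInterval) := ⟨fun s => ⟨s.1, s.2.1⟩, by fun_prop⟩
    have hg : ∀ s : S, f (g s) ∈ A.U j := fun s => hb s.2.2
    filter_upwards [h1, ball_mem_nhds t hr] with t' ht' htr
    let a : S := ⟨(t' : ℝ), t'.2, htr⟩
    let b : S := ⟨(t : ℝ), t.2, mem_ball_self hr⟩
    have h2 := tp_chart A x₀ (f.comp g) j hg a b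
    have h3 := tp_comp x₀ f g a b
    have h4 : tp x₀ f t' t = ct A x₀ j (f t') (f t) := h3.symm.trans h2
    have hm' : (γ t').1 ∈ A.U j := hg a
    rw [← tp_trans x₀ f t' t 0, h4, ← crd_cl hm', ht', mul_assoc, ← mul_assoc (ct _ _ _ _ _)]
    have h5 : ct A x₀ j j (γ t').1 * ct A x₀ j (f t') (f t) = ct A x₀ j j (γ t).1 :=
      ct_trans A x₀ (A.mem j) hm' hm
    rw [h5, ← mul_assoc, crd_cl hm]
  have h1 : IsLocallyConstant fun t => fib (γ t) * tp x₀ f t 0 :=
    (IsLocallyConstant.iff_eventually_eq _).2 key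
  have h2 : fib (γ 0) * tp x₀ f 0 0 = fib (γ 1) * tp x₀ f 1 0 :=
    h1.apply_eq_of_preconnectedSpace 0 1
  rw [tp_self, mul_one] at h2
  rw [h2, mul_assoc, tp_trans, tp_self, mul_one]

theorem cl_path' {e e' : UX A x₀} (p : Path e e') :
    fib e * pc x₀ ((Path.Homotopic.Quotient.mk p).map (pr A x₀)) = fib e' := by
  have h1 := cl_path (A := A) (x₀ := x₀) ⟨p, p.continuous⟩
  have h0 : (⟨p, p.continuous⟩ : C(unitInterval, UX A x₀)) 0 = e := p.source
  have h0' : (⟨p, p.continuous⟩ : C(unitInterval, UX A x₀)) 1 = e' := p.target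
  rw [h0, h0'] at h1
  rw [← h1]
  congr 1
  let idp : Path (0 : unitInterval) 1 := ⟨ContinuousMap.id _, rfl, rfl⟩
  rw [← tp_eq x₀ _ (Path.Homotopic.Quotient.mk idp), ← Path.Homotopic.Quotient.mk_map,
    ← Path.Homotopic.Quotient.mk_map]
  have hx : pr A x₀ e = ((pr A x₀).comp ⟨p, p.continuous⟩) 0 := by
    show pr A x₀ e = pr A x₀ (p 0); rw [p.source]
  have hy : pr A x₀ e' = ((pr A x₀).comp ⟨p, p.continuous⟩) 1 := by
    show pr A x₀ e' = pr A x₀ (p 1); rw [p.target]
  rw [← pc_cast (Path.Homotopic.Quotient.mk (idp.map _)) hx hy,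
    ← Path.Homotopic.Quotient.mk_cast]
  congr 1

theorem sc : SimplyConnectedSpace (UX A x₀) := by
  rw [simply_connected_iff_paths_homotopic']
  constructor
  · refine ⟨⟨⟨x₀, (1 : Pi1 x₀)⟩⟩, fun e e' => ?_⟩
    set g : Pi1 x₀ := (fib e)⁻¹ * fib e' with hg
    obtain ⟨q, hq⟩ := Path.Homotopic.Quotient.mk_surjective
      (cp x₀ g : Path.Homotopic.Quotient e.1 e'.1)
    have cov : IsCoveringMap (pr A x₀) := pr_cov
    have hq0 : (q : C(unitInterval, M)) 0 = pr A x₀ e := q.source
    set L := cov.liftPath (q : C(unitInterval, M)) e hq0 with hL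
    have h0 : L 0 = e := cov.liftPath_zero _ _ hq0
    have hl : (pr A x₀) ∘ L = q := cov.liftPath_lifts _ _ hq0
    have h1 : (L 1).1 = e'.1 := (congrFun hl 1).trans q.target
    let P : Path e (L 1) := ⟨L, h0, rfl⟩
    have h2 := cl_path' P
    have h3 : pc x₀ ((Path.Homotopic.Quotient.mk P).map (pr A x₀)) = g := by
      rw [← Path.Homotopic.Quotient.mk_map]
      have h4 : P.map (pr A x₀).continuous = q.cast rfl h1 := by
        ext t; exact congrFun hl t
      rw [h4]
      exact (pc_cast (Path.Homotopic.Quotient.mk q) rfl h1).trans (by rw [hq, pc_cp])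
    rw [h3, hg, mul_inv_cancel_left] at h2
    have h5 : L 1 = e' := ext_cl h1 h2.symm
    exact ⟨P.cast rfl h5.symm⟩
  · intro e e' p₁ p₂
    refine Path.Homotopic.Quotient.exact ?_
    refine pr_cov.injective_path_homotopic_map e e' ?_
    refine pc_inj x₀ ?_
    have h1 := cl_path' p₁
    have h2 := cl_path' p₂
    exact mul_left_cancel (h1.trans h2.symm)

/-- the images of paths under a null-homotopic map are homotopic -/
theorem null_paths {V X : Type} [TopologicalSpace V] [TopologicalSpace X] {f : C(V, X)}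
    (hf : f.Nullhomotopic) {a b : V} (p q : Path a b) :
    (p.map f.continuous).Homotopic (q.map f.continuous) := by
  obtain ⟨c, ⟨F⟩⟩ := hf
  have h1 := Path.Homotopic.Quotient.eq.2 (Path.Homotopic.map_trans_evalAt F p)
  have h2 := Path.Homotopic.Quotient.eq.2 (Path.Homotopic.map_trans_evalAt F q)
  have h3 : p.map (map_continuous (ContinuousMap.const V c)) =
      q.map (map_continuous (ContinuousMap.const V c)) := by
    ext t
    rfl
  rw [h3, ← h2, Path.Homotopic.Quotient.mk_trans, Path.Homotopic.Quotient.mk_trans] at h1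
  have h4 := congrArg (fun r => Path.Homotopic.Quotient.trans r
    (Path.Homotopic.Quotient.symm (Path.Homotopic.Quotient.mk (F.evalAt b)))) h1
  simp only [Path.Homotopic.Quotient.trans_assoc, Path.Homotopic.Quotient.trans_symm,
    Path.Homotopic.Quotient.trans_refl] at h4
  exact Path.Homotopic.Quotient.eq.1 h4

/-- existence of the universal covering -/
theorem exists_cover (X : Type) [TopologicalSpace X] [PathConnectedSpace X]
    [LocallyPathConnectedSpace X]
    (h : ∀ x : X, ∃ O : Set X, IsOpen O ∧ x ∈ O ∧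
      (⟨Subtype.val, continuous_subtype_val⟩ : C(O, X)).Nullhomotopic) :
    ∃ (E : Type) (_ : TopologicalSpace E) (p : C(E, X)),
      IsCoveringMap p ∧ SimplyConnectedSpace E := by
  choose O h1 h2 h3 using h
  let A : Atl X :=
    { U := fun x => pathComponentIn (O x) x
      op := fun x => (h1 x).pathComponentIn x
      mem := fun x => mem_pathComponentIn_self (h2 x)
      pc := fun x => isPathConnected_pathComponentIn (h2 x)
      sc := fun x y z γ γ' hγ hγ' => by
        have hy : y ∈ O x := γ.source ▸ pathComponentIn_subset (hγ 0)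
        have hz : z ∈ O x := γ.target ▸ pathComponentIn_subset (hγ 1)
        let p : Path (⟨y, hy⟩ : O x) ⟨z, hz⟩ :=
          ⟨⟨fun t => ⟨γ t, pathComponentIn_subset (hγ t)⟩, γ.continuous.subtype_mk _⟩,
            Subtype.ext γ.source, Subtype.ext γ.target⟩
        let q : Path (⟨y, hy⟩ : O x) ⟨z, hz⟩ :=
          ⟨⟨fun t => ⟨γ' t, pathComponentIn_subset (hγ' t)⟩, γ'.continuous.subtype_mk _⟩,
            Subtype.ext γ'.source, Subtype.ext γ'.target⟩
        exact null_paths (h3 x) p q }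
  obtain ⟨x₀⟩ : Nonempty X := inferInstance
  exact ⟨UX A x₀, inferInstance, pr A x₀, pr_cov, sc⟩

end Vale.Agent.N246S.Uni
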